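import Mathlib

/-!
Consecutive intervals of the index set, cells of a labelling inside them, and the energy whose
increase bounds the absence of labels from subintervals.
-/

namespace Vale.Agent.P037.Gen

open Finset

variable {n T : ℕ}

/-- The index of the interval of `r` among `L` intervals. -/
def iv (L : ℕ) (r : Fin n) : ℕ := (r : ℕ) * L / n

lemma iv_lt {L : ℕ} (hL : 0 < L) (r : Fin n) : iv L r < L := by
  rw [iv, Nat.div_lt_iff_lt_mul r.pos, mul_comm L]
  exact Nat.mul_lt_mul_of_pos_right r.isLt hL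

lemma iv_mono (L : ℕ) {r r' : Fin n} (h : r ≤ r') : iv L r ≤ iv L r' :=
  Nat.div_le_div_right (Nat.mul_le_mul_right _ h)

lemma iv_div (L : ℕ) {K : ℕ} (hK : 0 < K) (r : Fin n) : iv (L * K) r / K = iv L r := by
  rw [iv, iv, Nat.div_div_eq_div_mul, ← mul_assoc, Nat.mul_div_mul_right _ _ hK]

lemma lt_of_iv_lt {L : ℕ} {r r' : Fin n} (h : iv L r < iv L r') : r < r' := by
  by_contra h'
  exact absurd (iv_mono L (not_lt.1 h')) (by omega)

/-- The indices of type `a` in the interval `I`. -/
def cell (σ : Fin n → Fin T) (L : ℕ) (a : Fin T) (I : ℕ) : Finset (Fin n) :=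
  univ.filter fun r => σ r = a ∧ iv L r = I

lemma mem_cell {σ : Fin n → Fin T} {L : ℕ} {a : Fin T} {I : ℕ} {r : Fin n} :
    r ∈ cell σ L a I ↔ σ r = a ∧ iv L r = I := by simp [cell]

/-- The type `a` is well present in the `i`-th part of the interval `I`. -/
def pres (σ : Fin n → Fin T) (P L K : ℕ) (a : Fin T) (I i : ℕ) : Prop :=
  (cell σ L a I).card ≤ 2 * K * (cell σ (L * K) a (I * K + i)).card ∧
    n ≤ P * T * L * (cell σ L a I).card

instance (σ : Fin n → Fin T) (P L K : ℕ) (a : Fin T) (I i : ℕ) :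
    Decidable (pres σ P L K a I i) := by unfold pres; infer_instance

lemma pres_card {σ : Fin n → Fin T} {P L K : ℕ} {a : Fin T} {I i : ℕ}
    (h : pres σ P L K a I i) : n ≤ 2 * P * T * L * K * (cell σ (L * K) a (I * K + i)).card := by
  calc n ≤ P * T * L * (cell σ L a I).card := h.2
    _ ≤ P * T * L * (2 * K * (cell σ (L * K) a (I * K + i)).card) := Nat.mul_le_mul_left _ h.1
    _ = _ := by ring

/-- The number of pairs of an index and a part of its interval in which its type is not present. -/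
def absent (σ : Fin n → Fin T) (P L K : ℕ) : ℕ :=
  ∑ a, ∑ I ∈ range L,
    (cell σ L a I).card * ((range K).filter fun i => ¬ pres σ P L K a I i).card

/-- The energy of a labelling at the scale `L`. -/
def energy (σ : Fin n → Fin T) (L : ℕ) : ℝ :=
  (L : ℝ) * ∑ a, ∑ I ∈ range L, ((cell σ L a I).card : ℝ) ^ 2

lemma sum_parts (σ : Fin n → Fin T) (L : ℕ) {K : ℕ} (hK : 0 < K) (a : Fin T) (I : ℕ) :
    ∑ i ∈ range K, (cell σ (L * K) a (I * K + i)).card = (cell σ L a I).card := by
  rw [Finset.card_eq_sum_card_fiberwise (t := range K) (f := fun r => iv (L * K) r % K)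
    (fun r _ => Finset.mem_coe.2 (mem_range.2 (Nat.mod_lt _ hK)))]
  refine Finset.sum_congr rfl fun i hi => congrArg Finset.card ?_
  ext r
  simp only [mem_cell, Finset.mem_filter]
  rw [← iv_div L hK r]
  have h1 := Nat.div_add_mod (iv (L * K) r) K
  constructor
  · rintro ⟨ha, h⟩
    rw [h]
    exact ⟨⟨ha, by rw [Nat.add_comm, Nat.add_mul_div_right _ _ hK,
      Nat.div_eq_of_lt (mem_range.1 hi), Nat.zero_add]⟩,
      by rw [Nat.mul_add_mod_self_right, Nat.mod_eq_of_lt (mem_range.1 hi)]⟩
  · rintro ⟨⟨ha, hI⟩, hmod⟩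
    refine ⟨ha, ?_⟩
    rw [hI, hmod, Nat.mul_comm] at h1
    omega

lemma sum_range_mul (f : ℕ → ℝ) (L K : ℕ) :
    ∑ w ∈ range (L * K), f w = ∑ I ∈ range L, ∑ i ∈ range K, f (I * K + i) := by
  induction L with
  | zero => simp
  | succ L ih => rw [Nat.succ_mul, Finset.sum_range_add, Finset.sum_range_succ, ih]

lemma energy_refine (σ : Fin n → Fin T) (L K : ℕ) :
    energy σ (L * K) = (L : ℝ) * ∑ a, ∑ I ∈ range L,
      (K : ℝ) * ∑ i ∈ range K, ((cell σ (L * K) a (I * K + i)).card : ℝ) ^ 2 := by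
  rw [energy, Nat.cast_mul, mul_assoc, Finset.mul_sum (s := univ)]
  congr 1
  refine Finset.sum_congr rfl fun a _ => ?_
  rw [sum_range_mul, Finset.mul_sum]

lemma variance {ι : Type*} (s : Finset ι) (c : ι → ℝ) {m : ℝ} (hm : ∑ i ∈ s, c i = m)
    (hs : 0 < s.card) (B : Finset ι) (hB : B ⊆ s) (hb : ∀ i ∈ B, 2 * s.card * c i ≤ m) (h0 : 0 ≤ m) :
    (B.card : ℝ) * m ^ 2 ≤ 4 * s.card * ((s.card : ℝ) * ∑ i ∈ s, c i ^ 2 - m ^ 2) := by
  have key : ∑ i ∈ s, ((s.card : ℝ) * c i - m) ^ 2 =
      s.card * ((s.card : ℝ) * ∑ i ∈ s, c i ^ 2 - m ^ 2) := by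
    have hterm : ∀ i, ((s.card : ℝ) * c i - m) ^ 2 =
        (s.card : ℝ) ^ 2 * c i ^ 2 + ((-2 * s.card * m) * c i + m ^ 2) := fun i => by ring
    simp only [hterm, Finset.sum_add_distrib, ← Finset.mul_sum, hm, Finset.sum_const, nsmul_eq_mul]
    ring
  calc (B.card : ℝ) * m ^ 2 = ∑ i ∈ B, m ^ 2 := by simp
    _ ≤ ∑ i ∈ B, 4 * ((s.card : ℝ) * c i - m) ^ 2 := by
        refine Finset.sum_le_sum fun i hi => ?_
        have := hb i hi
        nlinarith
    _ ≤ ∑ i ∈ s, 4 * ((s.card : ℝ) * c i - m) ^ 2 :=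
        Finset.sum_le_sum_of_subset_of_nonneg hB fun i _ _ => by positivity
    _ = _ := by rw [← Finset.mul_sum, key]; ring

lemma energy_mono (σ : Fin n → Fin T) (L : ℕ) {K : ℕ} (hK : 0 < K) :
    energy σ L ≤ energy σ (L * K) := by
  rw [energy_refine, energy]
  refine mul_le_mul_of_nonneg_left (Finset.sum_le_sum fun a _ => Finset.sum_le_sum fun I _ => ?_)
    (Nat.cast_nonneg _)
  have h := variance (range K) (fun i => ((cell σ (L * K) a (I * K + i)).card : ℝ))
    (m := ((cell σ L a I).card : ℝ)) (by exact_mod_cast sum_parts σ L hK a I) (by simpa using hK)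
    ∅ (Finset.empty_subset _) (by simp) (Nat.cast_nonneg _)
  simp only [Finset.card_empty, Nat.cast_zero, zero_mul, Finset.card_range] at h
  have : (0 : ℝ) < 4 * K := by positivity
  nlinarith

lemma energy_nonneg (σ : Fin n → Fin T) (L : ℕ) : 0 ≤ energy σ L :=
  mul_nonneg (Nat.cast_nonneg _) (Finset.sum_nonneg fun _ _ => Finset.sum_nonneg fun _ _ => sq_nonneg _)

lemma interval_card (L I : ℕ) :
    L * (univ.filter fun r : Fin n => iv L r = I).card ≤ n + L := by
  set s := univ.filter fun r : Fin n => iv L r = I with hs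
  rcases s.eq_empty_or_nonempty with h | h
  · simp [h]
  obtain ⟨a, ha, hmin⟩ := s.exists_min_image (fun r => (r : ℕ)) h
  obtain ⟨b, hb, hmax⟩ := s.exists_max_image (fun r => (r : ℕ)) h
  have hsub : s.image Fin.val ⊆ Finset.Icc (a : ℕ) b := fun x hx => by
    obtain ⟨r, hr, rfl⟩ := Finset.mem_image.1 hx
    exact Finset.mem_Icc.2 ⟨hmin r hr, hmax r hr⟩
  have hc := Finset.card_le_card hsub
  rw [Finset.card_image_of_injective _ Fin.val_injective, Nat.card_Icc] at hc
  have h1 := (Finset.mem_filter.1 ha).2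
  have h2 := (Finset.mem_filter.1 hb).2
  have hab : (a : ℕ) ≤ b := hmax a ha
  have h3 := Nat.div_add_mod ((a : ℕ) * L) n
  have h4 := Nat.div_add_mod ((b : ℕ) * L) n
  have h5 := Nat.mod_lt ((b : ℕ) * L) a.pos
  rw [iv] at h1 h2
  rw [h1] at h3
  rw [h2] at h4
  obtain ⟨d, hd⟩ := Nat.le.dest hab
  rw [← hd] at hc h4 h5
  have : s.card ≤ d + 1 := by omega
  calc L * s.card ≤ L * (d + 1) := Nat.mul_le_mul_left _ this
    _ ≤ n + L := by
        have := Nat.zero_le ((a : ℕ) * L % n)
        have e : ((a : ℕ) + d) * L = (a : ℕ) * L + L * d := by ring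
        rw [Nat.mul_add, mul_one]
        omega

lemma energy_le (σ : Fin n → Fin T) {L : ℕ} (hL : 0 < L) (hLn : L ≤ n) :
    energy σ L ≤ 2 * (n : ℝ) ^ 2 := by
  set J := fun I => univ.filter fun r : Fin n => iv L r = I
  have hJ : ∀ I, (L : ℝ) * (J I).card ≤ 2 * n := fun I => by
    have := interval_card (n := n) L I
    have : L * (J I).card ≤ 2 * n := by simp only [J]; omega
    exact_mod_cast this
  have hsum : ∀ I, ∑ a, (cell σ L a I).card = (J I).card := fun I => by
    rw [Finset.card_eq_sum_card_fiberwise (t := univ) (f := σ) (fun r _ => Finset.mem_coe.2 (mem_univ _))]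
    refine Finset.sum_congr rfl fun a _ => congrArg Finset.card ?_
    ext r
    simp [mem_cell, J, and_comm]
  have htot : ∑ I ∈ range L, (J I).card = n := by
    rw [← Finset.card_eq_sum_card_fiberwise (fun r _ => Finset.mem_coe.2 (mem_range.2 (iv_lt hL r)))]
    simp
  rw [energy, Finset.sum_comm, Finset.mul_sum]
  calc ∑ I ∈ range L, (L : ℝ) * ∑ a, ((cell σ L a I).card : ℝ) ^ 2
      ≤ ∑ I ∈ range L, (2 * n : ℝ) * (J I).card := by
        refine Finset.sum_le_sum fun I _ => ?_
        have h1 : ∑ a, ((cell σ L a I).card : ℝ) ^ 2 ≤ ((J I).card : ℝ) ^ 2 := by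
          rw [← hsum, Nat.cast_sum]
          exact Finset.sum_sq_le_sq_sum_of_nonneg fun a _ => Nat.cast_nonneg _
        calc (L : ℝ) * ∑ a, ((cell σ L a I).card : ℝ) ^ 2 ≤ L * ((J I).card : ℝ) ^ 2 :=
              mul_le_mul_of_nonneg_left h1 (Nat.cast_nonneg _)
          _ = L * (J I).card * (J I).card := by ring
          _ ≤ _ := mul_le_mul_of_nonneg_right (hJ I) (Nat.cast_nonneg _)
    _ = 2 * (n : ℝ) ^ 2 := by rw [← Finset.mul_sum, ← Nat.cast_sum, htot]; ring

lemma absent_le (σ : Fin n → Fin T) (P L : ℕ) {K : ℕ} (hK : 0 < K) :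
    (P : ℝ) * absent σ P L K * n ≤
      (K : ℝ) * n ^ 2 + 4 * P ^ 2 * T * K * (energy σ (L * K) - energy σ L) := by
  set g := fun a I => (K : ℝ) * ∑ i ∈ range K,
    ((cell σ (L * K) a (I * K + i)).card : ℝ) ^ 2 - ((cell σ L a I).card : ℝ) ^ 2
  have hd : energy σ (L * K) - energy σ L = (L : ℝ) * ∑ a, ∑ I ∈ range L, g a I := by
    rw [energy_refine, energy, ← mul_sub, ← Finset.sum_sub_distrib]
    simp only [g, Finset.sum_sub_distrib]
  have hg : ∀ a I, 0 ≤ g a I ∧ (P : ℝ) * ((cell σ L a I).card *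
      ((range K).filter fun i => ¬ pres σ P L K a I i).card : ℕ) * n * (T * L) ≤
        (K : ℝ) * n ^ 2 + 4 * P ^ 2 * T * K * L * g a I * (T * L) := by
    intro a I
    set m := (cell σ L a I).card with hm
    set B := (range K).filter fun i => ¬ pres σ P L K a I i with hB
    have hv := variance (range K) (fun i => ((cell σ (L * K) a (I * K + i)).card : ℝ))
      (m := (m : ℝ)) (by exact_mod_cast sum_parts σ L hK a I) (by simpa using hK)
    have hg0 : 0 ≤ g a I := by
      have h := hv ∅ (Finset.empty_subset _) (by simp) (Nat.cast_nonneg _)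
      simp only [Finset.card_empty, Nat.cast_zero, zero_mul, Finset.card_range] at h
      have : (0 : ℝ) < 4 * K := by positivity
      simp only [g, ← hm]
      nlinarith
    refine ⟨hg0, ?_⟩
    have hBK : (B.card : ℝ) ≤ K := by
      exact_mod_cast (Finset.card_filter_le _ _).trans (by simp)
    push_cast
    by_cases htiny : n ≤ P * T * L * m
    · have hb : ∀ i ∈ B, 2 * ((range K).card : ℝ) * (cell σ (L * K) a (I * K + i)).card ≤ m :=
        fun i hi => by
          have h := (Finset.mem_filter.1 hi).2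
          rw [pres, not_and_or] at h
          rcases h with h | h
          · rw [Finset.card_range]; exact_mod_cast (not_le.1 h).le
          · exact absurd htiny h
      have h := hv B (Finset.filter_subset _ _) hb (Nat.cast_nonneg _)
      rw [Finset.card_range] at h
      have hn : (n : ℝ) ≤ P * T * L * m := by exact_mod_cast htiny
      have : (P : ℝ) * (m * B.card) * n * (T * L) ≤ P * (m * B.card) * (P * T * L * m) * (T * L) := by
        gcongr
      calc _ ≤ P * (m * B.card) * (P * T * L * m) * (T * L : ℝ) := this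
        _ = P ^ 2 * T * L * (T * L) * ((B.card : ℝ) * m ^ 2) := by ring
        _ ≤ P ^ 2 * T * L * (T * L) * (4 * K * g a I) := mul_le_mul_of_nonneg_left h (by positivity)
        _ ≤ _ := by
            have : (0 : ℝ) ≤ K * n ^ 2 := by positivity
            linarith
    · have hn : (P : ℝ) * T * L * m ≤ n := by exact_mod_cast (not_le.1 htiny).le
      calc (P : ℝ) * (m * B.card) * n * (T * L) = (P * T * L * m) * B.card * n := by ring
        _ ≤ (n : ℝ) * K * n := by gcongr
        _ ≤ _ := by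
            have : 0 ≤ 4 * (P : ℝ) ^ 2 * T * K * L * g a I * (T * L) := by positivity
            linarith
  rcases Nat.eq_zero_or_pos (T * L) with h0 | h0
  · rcases Nat.mul_eq_zero.1 h0 with rfl | rfl
    · simp [absent, energy]
      positivity
    · simp [absent, energy]
      positivity
  have h1 : ((P : ℝ) * absent σ P L K * n) * (T * L) ≤
      ((K : ℝ) * n ^ 2 + 4 * P ^ 2 * T * K * (energy σ (L * K) - energy σ L)) * (T * L) := by
    calc _ = ∑ a, ∑ I ∈ range L, (P : ℝ) * ((cell σ L a I).card *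
          ((range K).filter fun i => ¬ pres σ P L K a I i).card : ℕ) * n * (T * L) := by
          simp only [absent, Nat.cast_sum, Finset.mul_sum, Finset.sum_mul]
      _ ≤ ∑ a, ∑ I ∈ range L, ((K : ℝ) * n ^ 2 + 4 * P ^ 2 * T * K * L * g a I * (T * L)) :=
          Finset.sum_le_sum fun a _ => Finset.sum_le_sum fun I _ => (hg a I).2
      _ = _ := by
          rw [hd]
          simp only [Finset.sum_add_distrib, Finset.sum_const, Finset.card_univ, Fintype.card_fin,
            Finset.card_range, nsmul_eq_mul, ← Finset.mul_sum, ← Finset.sum_mul]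
          push_cast
          ring
  exact le_of_mul_le_mul_right h1 (by exact_mod_cast h0)

end Vale.Agent.P037.Gen
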