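import Vale.Agent.P037.Gen.Pack
import Vale.Agent.P037.Gen.Window

/-!
At a scale where the types are present in most parts of their intervals, sampled representatives
and a choice of parts with equal traces give a nearby matrix without copies.
-/

namespace Vale.Agent.P037.Gen

open Finset

variable {k n T : ℕ}

/-- `1` if two values differ. -/
def dis (u v : Bool) : ℕ := if u = v then 0 else 1

lemma dis_comm (u v : Bool) : dis u v = dis v u := by simp [dis, eq_comm]

lemma dis_tri (u v w : Bool) : dis u w ≤ dis u v + dis v w := by cases u <;> cases v <;> cases w <;> decide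

lemma dis_le_one (u v : Bool) : dis u v ≤ 1 := by cases u <;> cases v <;> decide

lemma rdist_eq (A : Fin n → Fin n → Bool) (x y : Fin n) : rdist A x y = ∑ c, dis (A x c) (A y c) := by
  rw [rdist, Finset.card_filter]
  exact Finset.sum_congr rfl fun c _ => by simp [dis]

/-- The part of the `I`-th interval containing `r`, with its type. -/
abbrev Slot (T L K : ℕ) := Fin T × Fin L × Fin K

/-- The sample space of a slot. -/
def slot (σ : Fin n → Fin T) (Y L K : ℕ) (e : Slot T L K) : Finset (Fin n) :=
  if n ≤ Y * (cell σ (L * K) e.1 (e.2.1 * K + e.2.2)).card then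
    cell σ (L * K) e.1 (e.2.1 * K + e.2.2)
  else univ

lemma slot_card (σ : Fin n → Fin T) {Y : ℕ} (hY : 1 ≤ Y) (L K : ℕ) (e : Slot T L K) :
    n ≤ Y * (slot σ Y L K e).card := by
  unfold slot
  split
  · assumption
  · simpa using Nat.le_mul_of_pos_left n hY

lemma slot_nonempty (σ : Fin n → Fin T) (hn : 1 ≤ n) (Y L K : ℕ) (e : Slot T L K) :
    (slot σ Y L K e).Nonempty := by
  unfold slot
  split
  · rename_i h
    rw [← Finset.card_pos]
    by_contra h0
    have : (cell σ (L * K) e.1 (e.2.1 * K + e.2.2)).card = 0 := by omega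
    rw [this, mul_zero] at h
    omega
  · exact ⟨⟨0, hn⟩, mem_univ _⟩

lemma slot_pres (σ : Fin n → Fin T) {P L K : ℕ} {e : Slot T L K} (h : pres σ P L K e.1 e.2.1 e.2.2) :
    slot σ (2 * P * T * L * K) L K e = cell σ (L * K) e.1 (e.2.1 * K + e.2.2) := by
  rw [slot, if_pos (pres_card h)]

/-- The interval of an index, as an element of `Fin L`. -/
def ivF {L : ℕ} (hL : 0 < L) (r : Fin n) : Fin L := ⟨iv L r, iv_lt hL r⟩

lemma sum_eval {ι : Type*} [Fintype ι] [DecidableEq ι] (S : ι → Finset (Fin n)) (e : ι)
    (f : Fin n → ℕ) :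
    (∑ x ∈ Fintype.piFinset S, f (x e)) * (S e).card =
      (Fintype.piFinset S).card * ∑ v ∈ S e, f v := by
  rw [← Finset.sum_fiberwise_of_maps_to (t := S e) (g := fun x : ι → Fin n => x e)
    (fun x hx => Fintype.mem_piFinset.1 hx e), Finset.sum_mul, Finset.mul_sum]
  refine Finset.sum_congr rfl fun v hv => ?_
  rw [Finset.sum_congr rfl (fun x hx => by rw [(Finset.mem_filter.1 hx).2]), Finset.sum_const,
    smul_eq_mul]
  have h := Fintype.piFinset_update_singleton_eq_filter_piFinset_eq S e hv
  rw [← h, Fintype.card_piFinset, Fintype.card_piFinset,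
    ← Finset.mul_prod_erase univ _ (mem_univ e), ← Finset.mul_prod_erase univ (fun a => (S a).card) (mem_univ e)]
  have : ∏ a ∈ univ.erase e, (Function.update S e {v} a).card = ∏ a ∈ univ.erase e, (S a).card :=
    Finset.prod_congr rfl fun a ha => by rw [Function.update_of_ne (Finset.ne_of_mem_erase ha)]
  rw [this, Function.update_self, Finset.card_singleton]
  ring

/-- A sampled representative of a present type is nearly a uniform member. -/
lemma avg (σ : Fin n → Fin T) {P L K : ℕ} (hL : 0 < L) (hK : 0 < K) (f : Fin T → Fin n → ℕ) :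
    ∑ x ∈ Fintype.piFinset (slot σ (2 * P * T * L * K) L K), ∑ r, ∑ i : Fin K,
        (if pres σ P L K (σ r) (iv L r) i then f (σ r) (x (σ r, ivF hL r, i)) else 0) ≤
      2 * K * (Fintype.piFinset (slot σ (2 * P * T * L * K) L K)).card * ∑ r, f (σ r) r := by
  classical
  set S := slot σ (2 * P * T * L * K) L K with hS
  set N := (Fintype.piFinset S).card
  set idx : Fin n → Slot T L K := fun r =>
    (σ r, ivF hL r, ⟨iv (L * K) r % K, Nat.mod_lt _ hK⟩) with hidx
  have hcell : ∀ e : Slot T L K, cell σ (L * K) e.1 (e.2.1 * K + e.2.2) = univ.filter fun r => idx r = e := by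
    intro e
    ext r
    simp only [mem_cell, Finset.mem_filter, mem_univ, true_and, hidx, Prod.ext_iff, ivF, Fin.ext_iff]
    rw [← iv_div L hK r]
    have h1 := Nat.div_add_mod (iv (L * K) r) K
    constructor
    · rintro ⟨ha, h⟩
      rw [h]
      exact ⟨ha, by rw [Nat.add_comm, Nat.add_mul_div_right _ _ hK, Nat.div_eq_of_lt e.2.2.isLt,
        Nat.zero_add], by rw [Nat.mul_add_mod_self_right, Nat.mod_eq_of_lt e.2.2.isLt]⟩
    · rintro ⟨ha, hI, hm⟩
      rw [hI, hm, Nat.mul_comm] at h1
      exact ⟨ha, by omega⟩
  rw [Finset.sum_comm]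
  have step1 : ∀ r, ∑ x ∈ Fintype.piFinset S, ∑ i : Fin K,
      (if pres σ P L K (σ r) (iv L r) i then f (σ r) (x (σ r, ivF hL r, i)) else 0) =
      (fun p : Fin T × Fin L => ∑ i : Fin K, if pres σ P L K p.1 p.2 i then
        ∑ x ∈ Fintype.piFinset S, f p.1 (x (p.1, p.2, i)) else 0) (σ r, ivF hL r) := by
    intro r
    rw [Finset.sum_comm]
    refine Finset.sum_congr rfl fun i _ => ?_
    by_cases h : pres σ P L K (σ r) (iv L r) i
    · simp [ivF, h]
    · simp [ivF, h]
  rw [Finset.sum_congr rfl fun r _ => step1 r,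
    ← Finset.sum_fiberwise_of_maps_to (t := univ) (g := fun r => (σ r, ivF hL r)) (fun r _ => mem_univ _)]
  calc _ = ∑ p : Fin T × Fin L, (cell σ L p.1 p.2).card * ∑ i : Fin K,
        (if pres σ P L K p.1 p.2 i then ∑ x ∈ Fintype.piFinset S, f p.1 (x (p.1, p.2, i)) else 0) := by
        refine Finset.sum_congr rfl fun p _ => ?_
        rw [Finset.sum_congr rfl (fun r hr => by rw [(Finset.mem_filter.1 hr).2]), Finset.sum_const,
          smul_eq_mul]
        congr 2
        ext r
        simp [mem_cell, Prod.ext_iff, ivF, Fin.ext_iff]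
    _ ≤ ∑ p : Fin T × Fin L, ∑ i : Fin K, 2 * K * N * ∑ v ∈ univ.filter (fun r => idx r = (p.1, p.2, i)), f (σ v) v := by
        refine Finset.sum_le_sum fun p _ => ?_
        rw [Finset.mul_sum]
        refine Finset.sum_le_sum fun i _ => ?_
        by_cases hp : pres σ P L K p.1 p.2 i
        · rw [if_pos hp, ← hcell (p.1, p.2, i)]
          have hSe : S (p.1, p.2, i) = cell σ (L * K) p.1 (p.2 * K + i) :=
            slot_pres σ (e := (p.1, p.2, i)) hp
          have hev := sum_eval S (p.1, p.2, i) (f p.1)
          rw [hSe] at hev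
          calc _ ≤ 2 * K * (cell σ (L * K) p.1 (p.2 * K + i)).card *
                ∑ x ∈ Fintype.piFinset S, f p.1 (x (p.1, p.2, i)) := Nat.mul_le_mul_right _ hp.1
            _ = 2 * K * ((∑ x ∈ Fintype.piFinset S, f p.1 (x (p.1, p.2, i))) *
                (cell σ (L * K) p.1 (p.2 * K + i)).card) := by ring
            _ = _ := by
                rw [hev, ← mul_assoc]
                congr 1
                refine Finset.sum_congr rfl fun v hv => ?_
                rw [(mem_cell.1 hv).1]
        · rw [if_neg hp, mul_zero]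
          exact Nat.zero_le _
    _ = _ := by
        rw [← Finset.sum_fiberwise_of_maps_to (t := univ) (g := idx) (f := fun v => f (σ v) v)
          (fun r _ => mem_univ _), Fintype.sum_prod_type, Fintype.sum_prod_type]
        simp only [Fintype.sum_prod_type, Finset.mul_sum]

lemma absent_eq (σ : Fin n → Fin T) (P : ℕ) {L : ℕ} (hL : 0 < L) (K : ℕ) :
    absent σ P L K = ∑ r, ∑ i : Fin K, (if pres σ P L K (σ r) (iv L r) i then 0 else 1) := by
  classical
  rw [← Finset.sum_fiberwise_of_maps_to (s := univ) (t := (univ : Finset (Fin T)) ×ˢ range L)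
    (g := fun r => (σ r, iv L r))
    (fun r _ => Finset.mem_product.2 ⟨mem_univ _, mem_range.2 (iv_lt hL r)⟩), Finset.sum_product]
  refine Finset.sum_congr rfl fun a _ => Finset.sum_congr rfl fun I _ => ?_
  rw [Finset.sum_congr rfl (fun r hr => by
    rw [show σ r = a from (Prod.ext_iff.1 (Finset.mem_filter.1 hr).2).1,
      show iv L r = I from (Prod.ext_iff.1 (Finset.mem_filter.1 hr).2).2]),
    Finset.sum_const, smul_eq_mul]
  congr 1
  · congr 1
    ext r
    simp [mem_cell, Prod.ext_iff]
  · rw [Finset.card_filter, ← Fin.sum_univ_eq_sum_range]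
    simp [ite_not]

/-- Some colour class is large and its member of least cost is cheap. -/
lemma select {β : Type*} [DecidableEq β] {K G : ℕ} (col : Fin K → β) (f : Fin K → ℕ)
    (hG : (univ.image col).card ≤ G) (hK : 2 * G * k ≤ K) (hK0 : 0 < K) :
    ∃ i, k ≤ (univ.filter fun i' => col i' = col i).card ∧ K * f i ≤ 2 * ∑ i', f i' := by
  classical
  set ok := univ.filter fun i => k ≤ (univ.filter fun i' => col i' = col i).card with hok
  set small := univ.filter fun i => ¬ k ≤ (univ.filter fun i' => col i' = col i).card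
  have hsmall : small.card ≤ G * k := by
    refine (Finset.card_le_mul_card_image (f := col) small k fun b hb => ?_).trans ?_
    · obtain ⟨i, hi, rfl⟩ := Finset.mem_image.1 hb
      exact (Finset.card_le_card (Finset.filter_subset_filter _ (Finset.subset_univ _))).trans
        (not_le.1 (Finset.mem_filter.1 hi).2).le
    · rw [mul_comm]
      exact Nat.mul_le_mul_right _ ((Finset.card_le_card
        (Finset.image_subset_image (Finset.subset_univ _))).trans hG)
  have hsum : ok.card + small.card = K :=
    (Finset.card_filter_add_card_filter_not _).trans (by simp)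
  have hh : 2 * small.card ≤ K := by rw [mul_assoc] at hK; omega
  obtain ⟨i, hi, hmin⟩ := ok.exists_min_image f (Finset.card_pos.1 (by omega))
  refine ⟨i, (Finset.mem_filter.1 hi).2, ?_⟩
  calc K * f i ≤ 2 * ok.card * f i := Nat.mul_le_mul_right _ (by omega)
    _ = 2 * ∑ _j ∈ ok, f i := by rw [Finset.sum_const, smul_eq_mul]; ring
    _ ≤ 2 * ∑ j ∈ ok, f j := Nat.mul_le_mul_left _ (Finset.sum_le_sum hmin)
    _ ≤ _ := Nat.mul_le_mul_left _ (Finset.sum_le_univ_sum_of_nonneg fun _ => Nat.zero_le _)

/-- Representatives on one side: each kept index gets the sample of a part of its interval, and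
every monotone sequence of kept indices is realised by samples with the same traces on `C`. -/
lemma reps (A : Fin n → Fin n → Bool) (σ : Fin n → Fin T) {P L K G : ℕ} (hL : 0 < L) (hK0 : 0 < K)
    (hK : 2 * G * k ≤ K) (x : Slot T L K → Fin n)
    (hx : x ∈ Fintype.piFinset (slot σ (2 * P * T * L * K) L K)) (C : Finset (Fin n))
    {m : ℕ} (hm : ((univ.image x).image (trace A C)).card ≤ m) (hmG : (m + 1) ^ T ≤ G)
    (g : Fin n → Fin n → ℕ) (w : ℕ) :
    ∃ (keep : Finset (Fin n)) (rep : Fin n → Fin n),
      (∀ r ∈ keep, rep r ∈ univ.image x) ∧ (keep.image rep).card ≤ T * L ∧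
      K * (∑ r, if r ∈ keep then g r (rep r) else w) ≤
        2 * ∑ r, ∑ i : Fin K,
          (if pres σ P L K (σ r) (iv L r) i then g r (x (σ r, ivF hL r, i)) else w) ∧
      ∀ ρ : Fin k → Fin n, Monotone ρ → (∀ i, ρ i ∈ keep) → ∃ R : Fin k → Fin n, StrictMono R ∧
        (∀ i, R i ∈ univ.image x) ∧ ∀ i, ∀ c ∈ C, A (R i) c = A (rep (ρ i)) c := by
  classical
  set col : Fin L → Fin K → Fin T → Option (Finset (Fin n)) := fun I i a =>
    if pres σ P L K a I i then some (trace A C (x (a, I, i))) else none with hcol
  have hcG : ∀ I, (univ.image (col I)).card ≤ G := fun I => by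
    calc (univ.image (col I)).card
        ≤ (Fintype.piFinset fun _ : Fin T => insertNone ((univ.image x).image (trace A C))).card := by
          refine Finset.card_le_card fun c hc => ?_
          obtain ⟨i, -, rfl⟩ := Finset.mem_image.1 hc
          rw [Fintype.mem_piFinset]
          intro a
          simp only [hcol]
          split
          · exact Finset.some_mem_insertNone.2
              (Finset.mem_image_of_mem _ (Finset.mem_image_of_mem _ (mem_univ _)))
          · exact Finset.none_mem_insertNone
      _ ≤ G := by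
          rw [Fintype.card_piFinset, Finset.prod_const, Finset.card_univ, Fintype.card_fin,
            Finset.card_insertNone]
          exact (Nat.pow_le_pow_left (by omega) _).trans hmG
  set cost : Fin L → Fin K → ℕ := fun I i => ∑ r ∈ univ.filter (fun r => ivF hL r = I),
    if pres σ P L K (σ r) I i then g r (x (σ r, I, i)) else w with hcost
  choose sel hsel hselc using fun I => select (k := k) (col I) (cost I) (hcG I) hK hK0
  choose W hWsub hWc using fun I => Finset.exists_subset_card_eq (hsel I)
  set keep := univ.filter fun r => pres σ P L K (σ r) (iv L r) (sel (ivF hL r))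
  set rep := fun r => x (σ r, ivF hL r, sel (ivF hL r))
  refine ⟨keep, rep, fun r _ => Finset.mem_image_of_mem _ (mem_univ _), ?_, ?_, fun ρ hρ hρk => ?_⟩
  · calc (keep.image rep).card ≤ ((univ : Finset (Fin T × Fin L)).image
          fun p => x (p.1, p.2, sel p.2)).card := Finset.card_le_card fun v hv => by
            obtain ⟨r, -, rfl⟩ := Finset.mem_image.1 hv
            exact Finset.mem_image.2 ⟨(σ r, ivF hL r), mem_univ _, rfl⟩
      _ ≤ _ := Finset.card_image_le.trans (by simp)
  · have h1 : (∑ r, if r ∈ keep then g r (rep r) else w) = ∑ I, cost I (sel I) := by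
      rw [← Finset.sum_fiberwise_of_maps_to (t := univ) (g := ivF hL) (fun r _ => mem_univ _)]
      refine Finset.sum_congr rfl fun I _ => Finset.sum_congr rfl fun r hr => ?_
      have hI := (Finset.mem_filter.1 hr).2
      subst hI
      simp only [keep, rep, ivF]
      exact if_congr ⟨fun q => (Finset.mem_filter.1 q).2, fun q => Finset.mem_filter.2 ⟨Finset.mem_univ _, q⟩⟩ rfl rfl
    have h2 : (∑ r, ∑ i : Fin K, if pres σ P L K (σ r) (iv L r) i then g r (x (σ r, ivF hL r, i))
        else w) = ∑ I, ∑ i, cost I i := by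
      rw [← Finset.sum_fiberwise_of_maps_to (t := univ) (g := ivF hL) (fun r _ => mem_univ _)]
      refine Finset.sum_congr rfl fun I _ => ?_
      rw [Finset.sum_comm]
      refine Finset.sum_congr rfl fun i _ => Finset.sum_congr rfl fun r hr => ?_
      have hI := (Finset.mem_filter.1 hr).2
      subst hI
      simp only [ivF]
      exact if_congr Iff.rfl rfl rfl
    rw [h1, h2, Finset.mul_sum, Finset.mul_sum]
    exact Finset.sum_le_sum fun I _ => hselc I
  · set I := fun i => ivF hL (ρ i)
    set win := fun i => (W (I i)).orderEmbOfFin (hWc (I i)) i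
    have hwin : ∀ i, col (I i) (win i) = col (I i) (sel (I i)) := fun i =>
      (Finset.mem_filter.1 (hWsub _ (Finset.orderEmbOfFin_mem _ (hWc _) i))).2
    have hpres : ∀ i, pres σ P L K (σ (ρ i)) (I i) (win i) ∧
        trace A C (x (σ (ρ i), I i, win i)) = trace A C (rep (ρ i)) := fun i => by
      have h := congrFun (hwin i) (σ (ρ i))
      have hp : pres σ P L K (σ (ρ i)) (I i) (sel (I i)) := (Finset.mem_filter.1 (hρk i)).2
      simp only [hcol, if_pos hp] at h
      split at h
      · exact ⟨‹_›, Option.some.inj h⟩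
      · exact absurd h (by simp)
    refine ⟨fun i => x (σ (ρ i), I i, win i), fun i j hij => lt_of_iv_lt (L := L * K) ?_,
      fun i => Finset.mem_image_of_mem _ (mem_univ _), fun i c hc => trace_eq (hpres i).2 hc⟩
    have hmem : ∀ i, iv (L * K) (x (σ (ρ i), I i, win i)) = (I i : ℕ) * K + (win i : ℕ) := fun i => by
      have := Fintype.mem_piFinset.1 hx (σ (ρ i), I i, win i)
      rw [slot_pres σ (e := (σ (ρ i), I i, win i)) (hpres i).1] at this
      exact (mem_cell.1 this).2
    show iv (L * K) _ < iv (L * K) _
    rw [hmem, hmem]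
    have hle : (I i : ℕ) ≤ I j := iv_mono L (hρ hij.le)
    rcases hle.lt_or_eq with h | h
    · calc (I i : ℕ) * K + win i < (I i : ℕ) * K + K := Nat.add_lt_add_left (win i).isLt _
        _ = ((I i : ℕ) + 1) * K := (Nat.succ_mul _ _).symm
        _ ≤ (I j : ℕ) * K := Nat.mul_le_mul_right _ h
        _ ≤ _ := Nat.le_add_right _ _
    · have h' : I i = I j := Fin.ext h
      have : win i < win j := by
        simp only [win, h']
        exact (W (I j)).orderEmbOfFin (hWc (I j)) |>.strictMono hij
      rw [h]
      exact Nat.add_lt_add_left this _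

end Vale.Agent.P037.Gen
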