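import Vale.Agent.P037.Gen.Near

/-!
The removal lemma for an arbitrary pattern with a doubly exponential bound.
-/

namespace Vale.Agent.P037.Gen

open Finset

variable {k n : ℕ}

/-- The number of parts for the columns at the scale `L`. -/
def partC (k T L : ℕ) : ℕ := 2 * (trBound k (T * L) + 1) ^ T * k + 1

/-- The number of parts for the rows at the scale `L`. -/
def partR (k T L : ℕ) : ℕ :=
  partC k T L * (2 * (trBound k (T * L * partC k T L) + 1) ^ T * k + 1)

/-- The scales. -/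
def scale (k T : ℕ) : ℕ → ℕ
  | 0 => 1
  | t + 1 => scale k T t * partR k T (scale k T t)

lemma partR_pos (k T L : ℕ) : 0 < partR k T L := Nat.mul_pos (Nat.succ_pos _) (Nat.succ_pos _)

lemma scale_pos (k T : ℕ) : ∀ t, 0 < scale k T t
  | 0 => Nat.one_pos
  | t + 1 => Nat.mul_pos (scale_pos k T t) (partR_pos k T _)

lemma scale_mono (k T : ℕ) {s t : ℕ} (h : s ≤ t) : scale k T s ≤ scale k T t :=
  monotone_nat_of_le_succ (fun _ => Nat.le_mul_of_pos_right _ (partR_pos k T _)) h

/-- The number of scales examined. -/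
def numScales (k P : ℕ) : ℕ := 16 * P ^ 2 * numTypes k P

/-- The finest scale. -/
def top (k P : ℕ) : ℕ := scale k (numTypes k P) (numScales k P)

/-- The loss at resolution `1 / P`. -/
def loss (k P : ℕ) : ℕ :=
  2 * P ^ numTypes k P * (numTypes k P * (P * P)) ^ k + top k P ^ (2 * k) +
    2 * (numTypes k P * top k P * (2 * P * numTypes k P * top k P)) ^ (2 * k)

theorem dichotomy (H : Fin k → Fin k → Bool) (A : Fin n → Fin n → Bool) {P : ℕ} (hn : 1 ≤ n)
    (hP : 232 < P) (hP2 : 2 * numTypes k P ^ 2 ≤ 2 ^ P) :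
    (∃ B, copyCount H B = 0 ∧ P * diffCount A B ≤ 232 * n ^ 2) ∨
      n ^ (2 * k) ≤ loss k P * copyCount H A := by
  classical
  set T := numTypes k P with hT
  rcases Nat.eq_zero_or_pos (copyCount H A) with h0 | h0
  · exact Or.inl ⟨A, h0, by simp [diffCount]⟩
  rcases lt_or_ge n (top k P) with hnL | hnL
  · refine Or.inr ((Nat.pow_le_pow_left hnL.le _).trans ?_)
    calc top k P ^ (2 * k) ≤ loss k P := (Nat.le_add_left _ _).trans (Nat.le_add_right _ _)
      _ ≤ _ := Nat.le_mul_of_pos_right _ h0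
  rcases pack H A hn (by omega) hP2 with ⟨σ, ctr, hσ⟩ | h
  swap
  · exact Or.inr (h.trans (Nat.mul_le_mul_right _
      ((Nat.le_add_right _ _).trans (Nat.le_add_right _ _))))
  rcases pack (fun i j => H j i) (fun r c => A c r) hn (by omega) hP2 with ⟨τ, cctr, hτ⟩ | h
  swap
  · rw [copyCount_transpose] at h
    exact Or.inr (h.trans (Nat.mul_le_mul_right _
      ((Nat.le_add_right _ _).trans (Nat.le_add_right _ _))))
  set D := numScales k P with hD
  have hT0 : 0 < T := Nat.succ_pos _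
  have hD0 : 0 < D := Nat.mul_pos (Nat.mul_pos (by omega) (Nat.pow_pos (by omega))) hT0
  have hsn : ∀ t ≤ D, scale k T t ≤ n := fun t ht => (scale_mono k T ht).trans hnL
  set F := fun t => energy σ (scale k T t) + energy τ (scale k T t) with hF
  have htel : ∑ t ∈ range D, (F (t + 1) - F t) ≤ 4 * (n : ℝ) ^ 2 := by
    rw [Finset.sum_range_sub]
    have h1 := energy_le σ (scale_pos k T D) (hsn D le_rfl)
    have h2 := energy_le τ (scale_pos k T D) (hsn D le_rfl)
    have h3 := energy_nonneg σ (scale k T 0)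
    have h4 := energy_nonneg τ (scale k T 0)
    simp only [hF]
    linarith
  obtain ⟨t, ht, hgain⟩ : ∃ t ∈ range D, F (t + 1) - F t ≤ 4 * (n : ℝ) ^ 2 / D := by
    refine Finset.exists_le_of_sum_le ⟨0, mem_range.2 hD0⟩ (htel.trans (le_of_eq ?_))
    rw [Finset.sum_const, Finset.card_range, nsmul_eq_mul]
    field_simp
  set L := scale k T t with hL
  set Kc := partC k T L with hKc
  set Kr := partR k T L with hKr
  have hnext : scale k T (t + 1) = L * Kr := rfl
  have hLK : L * Kr ≤ top k P := hnext ▸ scale_mono k T (mem_range.1 ht)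
  have hKc0 : 0 < Kc := Nat.succ_pos _
  have hKcr : Kc ≤ Kr := Nat.le_mul_of_pos_right _ (Nat.succ_pos _)
  have hmc : energy τ (L * Kc) ≤ energy τ (L * Kr) := by
    rw [hKr, partR, ← hKc, ← mul_assoc]
    exact energy_mono τ _ (Nat.succ_pos _)
  have hmr := energy_mono σ L (K := Kr) (partR_pos k T L)
  have hmr' := energy_mono τ L (K := Kr) (partR_pos k T L)
  simp only [hF, hnext, ← hL] at hgain
  have key : ∀ (φ : Fin n → Fin T) (K : ℕ), 0 < K →
      energy φ (L * K) - energy φ L ≤ 4 * (n : ℝ) ^ 2 / D →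
      P * absent φ P L K * n ≤ 2 * K * n ^ 2 := by
    intro φ K hK hg
    have h := absent_le φ P L hK
    have hDr : (D : ℝ) = 16 * P ^ 2 * T := by rw [hD, numScales, ← hT]; push_cast; ring
    have h2 : 4 * (P : ℝ) ^ 2 * T * K * (energy φ (L * K) - energy φ L) ≤ (K : ℝ) * n ^ 2 := by
      refine (mul_le_mul_of_nonneg_left hg (by positivity)).trans (le_of_eq ?_)
      rw [hDr]
      have : (P : ℝ) ≠ 0 := by exact_mod_cast (show P ≠ 0 by omega)
      have : (T : ℝ) ≠ 0 := by exact_mod_cast hT0.ne'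
      field_simp
      ring
    have h3 : (P : ℝ) * absent φ P L K * n ≤ 2 * K * n ^ 2 := by linarith
    exact_mod_cast h3
  have har := key σ Kr (partR_pos k T L) (by linarith)
  have hac := key τ Kc hKc0 (by linarith)
  rcases near H A σ τ ctr cctr hσ hτ hn hP (scale_pos k T t) (partR_pos k T L) hKc0 har hac
      ((Nat.le_succ _).trans (Nat.le_mul_of_pos_left _ hKc0)) (Nat.le_succ _) with h | h
  · exact Or.inl h
  · refine Or.inr (h.trans (Nat.mul_le_mul_right _ ?_))
    refine le_trans ?_ (Nat.le_add_left _ _)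
    rw [pow_mul, sq]
    refine Nat.mul_le_mul_left _ (Nat.pow_le_pow_left ?_ _)
    have hLKc : L * Kc ≤ top k P := (Nat.mul_le_mul_left _ hKcr).trans hLK
    rw [mul_assoc _ L Kr, mul_assoc _ L Kc]
    gcongr

/-- The exponent growth per scale. -/
lemma growth {T P e L : ℕ} (k a : ℕ) (ha : T ≤ 2 ^ (a * P)) (hT : 0 < T) (hPe : P ≤ e)
    (he : 1 ≤ e) (hL : L ≤ 2 ^ e) :
    L * partR k T L ≤ 2 ^ (((patSize k + 1) * (patSize k + 1) * (a + 2 * k + 4) * 16) * T ^ 2 * e) := by
  set c := patSize k with hc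
  have htb : ∀ m q, m ≤ 2 ^ q → 1 ≤ q →
      2 * (trBound k m + 1) ^ T * k + 1 ≤ 2 ^ (((c + 1) * 3 * q + (2 * k + 1)) * T) := by
    intro m q hm hq
    have h1 : trBound k m + 1 ≤ 2 ^ ((c + 1) * 3 * q) := by
      calc trBound k m + 1 ≤ (c + 1) * (m + 1) ^ c := by
            rw [trBound, ← hc, Nat.succ_mul]; exact Nat.add_le_add_left (Nat.pow_pos (by omega)) _
        _ ≤ 2 ^ c * (2 ^ (q + 1)) ^ c := by
            refine Nat.mul_le_mul (Nat.succ_le_of_lt c.lt_two_pow_self) (Nat.pow_le_pow_left ?_ _)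
            rw [pow_succ]
            have : 0 < 2 ^ q := Nat.pow_pos (by omega)
            omega
        _ ≤ _ := by
            rw [← pow_mul, ← pow_add]
            exact Nat.pow_le_pow_right (by omega) (by nlinarith [Nat.mul_le_mul_left c hq])
    calc 2 * (trBound k m + 1) ^ T * k + 1 ≤ (2 * k + 1) * (trBound k m + 1) ^ T := by
          have : 1 ≤ (trBound k m + 1) ^ T := Nat.one_le_pow _ _ (Nat.succ_pos _)
          nlinarith
      _ ≤ 2 ^ (2 * k + 1) * (2 ^ ((c + 1) * 3 * q)) ^ T :=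
          Nat.mul_le_mul ((2 * k + 1).lt_two_pow_self).le (Nat.pow_le_pow_left h1 _)
      _ ≤ _ := by
          rw [← pow_mul, ← pow_add]
          exact Nat.pow_le_pow_right (by omega) (by nlinarith)
  set q1 := (a + 1) * e with hq1
  have hTL : T * L ≤ 2 ^ q1 := by
    refine (Nat.mul_le_mul ha hL).trans ?_
    rw [← pow_add]
    exact Nat.pow_le_pow_right (by omega) (by nlinarith)
  set e1 := ((c + 1) * 3 * q1 + (2 * k + 1)) * T with he1
  have hC : partC k T L ≤ 2 ^ e1 := htb _ _ hTL (by nlinarith)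
  have hTLC : T * L * partC k T L ≤ 2 ^ (q1 + e1) := by
    rw [pow_add]; exact Nat.mul_le_mul hTL hC
  calc L * partR k T L
      ≤ 2 ^ e * (2 ^ e1 * 2 ^ (((c + 1) * 3 * (q1 + e1) + (2 * k + 1)) * T)) :=
        Nat.mul_le_mul hL (Nat.mul_le_mul hC (htb _ _ hTLC (by nlinarith)))
    _ ≤ _ := by
        rw [← pow_add, ← pow_add]
        refine Nat.pow_le_pow_right (by omega) ?_
        have h1 : (c + 1) * 3 * q1 + (2 * k + 1) ≤ (c + 1) * (a + 2 * k + 4) * 3 * e := by
          calc (c + 1) * 3 * q1 + (2 * k + 1) ≤ (c + 1) * 3 * q1 + (c + 1) * 3 * ((2 * k + 3) * e) :=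
                Nat.add_le_add_left ((show 2 * k + 1 ≤ (2 * k + 3) * e by nlinarith).trans
                  (Nat.le_mul_of_pos_left _ (by omega))) _
            _ = _ := by rw [hq1]; ring
        have h2 : e1 ≤ (c + 1) * (a + 2 * k + 4) * 3 * e * T := Nat.mul_le_mul_right _ h1
        have hee : e ≤ (c + 1) * (a + 2 * k + 4) * e * T := by
          have : 1 ≤ (c + 1) * (a + 2 * k + 4) * T :=
            Nat.mul_pos (Nat.mul_pos (Nat.succ_pos _) (by omega)) hT
          calc e = 1 * e := (one_mul e).symm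
            _ ≤ (c + 1) * (a + 2 * k + 4) * T * e := Nat.mul_le_mul_right _ this
            _ = _ := by ring
        calc e + (e1 + ((c + 1) * 3 * (q1 + e1) + (2 * k + 1)) * T)
            = e + 2 * e1 + (c + 1) * 3 * e1 * T := by rw [he1]; ring
          _ ≤ (c + 1) * (a + 2 * k + 4) * e * T + 2 * ((c + 1) * (a + 2 * k + 4) * 3 * e * T) +
              (c + 1) * 3 * ((c + 1) * (a + 2 * k + 4) * 3 * e * T) * T := by gcongr
          _ ≤ _ := by
            generalize (a + 2 * k + 4) = b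
            have h5 : (c + 1) * b * e * T + 2 * ((c + 1) * b * 3 * e * T) ≤
                (c + 1) * (c + 1) * b * e * T ^ 2 * 7 := by
              calc _ = (c + 1) * b * e * T * 7 := by ring
                _ ≤ (c + 1) * b * e * T * 7 * ((c + 1) * T) :=
                    Nat.le_mul_of_pos_right _ (Nat.mul_pos (Nat.succ_pos _) hT)
                _ = _ := by ring
            calc _ ≤ (c + 1) * (c + 1) * b * e * T ^ 2 * 7 +
                  (c + 1) * 3 * ((c + 1) * b * 3 * e * T) * T := Nat.add_le_add_right h5 _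
              _ = _ := by ring

/-- The loss in terms of the exponent of the finest scale. -/
lemma loss_le (k a : ℕ) {P e : ℕ} (ha : numTypes k P ≤ 2 ^ (a * P)) (hPT : P * numTypes k P ≤ e)
    (hPe : P ≤ e) (he1 : 1 ≤ e) (htop : top k P ≤ 2 ^ e) :
    loss k P ≤ 2 ^ (((2 * a + 4) * (2 * k) + k * (3 * a + 5) + 4) * e) := by
  set E := (2 * a + 4) * (2 * k) + k * (3 * a + 5) + 4 with hE
  set T := numTypes k P with hT
  have hP2' : P ≤ 2 ^ P := P.lt_two_pow_self.le
  have t1 : 2 * P ^ T * (T * (P * P)) ^ k ≤ 2 ^ (1 + P * T + (a * P + (P + P)) * k) := by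
    rw [pow_add, pow_add, pow_mul 2 P T, pow_mul _ _ k, pow_add, pow_add, pow_one]
    gcongr
  have t3 : 2 * (T * top k P * (2 * P * T * top k P)) ^ (2 * k) ≤
      2 ^ (1 + (a * P + e + (1 + P + a * P + e)) * (2 * k)) := by
    rw [pow_add, pow_mul _ _ (2 * k), pow_add, pow_add, pow_add, pow_add, pow_add, pow_one]
    gcongr
  have t2 : top k P ^ (2 * k) ≤ 2 ^ (e * (2 * k)) := by
    rw [pow_mul 2]; exact Nat.pow_le_pow_left htop _
  have hs1 : 1 + P * T + (a * P + (P + P)) * k ≤ (E - 2) * e := by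
    calc _ ≤ e + e + (a * e + (e + e)) * k := by gcongr
      _ = (2 + (a + 2) * k) * e := by ring
      _ ≤ _ := Nat.mul_le_mul_right _ (by
          rw [hE]
          have : (a + 2) * k ≤ k * (3 * a + 5) := by nlinarith
          omega)
  have hs3 : 1 + (a * P + e + (1 + P + a * P + e)) * (2 * k) ≤ (E - 2) * e := by
    calc _ ≤ e + (a * e + e + (e + e + a * e + e)) * (2 * k) := by gcongr
      _ = (1 + (2 * a + 4) * (2 * k)) * e := by ring
      _ ≤ _ := Nat.mul_le_mul_right _ (by omega)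
  have hs2 : e * (2 * k) ≤ (E - 2) * e := by
    rw [mul_comm e]
    refine Nat.mul_le_mul_right _ ?_
    have : 2 * k ≤ (2 * a + 4) * (2 * k) := Nat.le_mul_of_pos_left _ (by omega)
    omega
  have hpow : ∀ x, x ≤ (E - 2) * e → 2 ^ x ≤ 2 ^ ((E - 2) * e) :=
    fun x hx => Nat.pow_le_pow_right (by omega) hx
  have h4 : 2 ^ ((E - 2) * e) * 4 ≤ 2 ^ (E * e) := by
    rw [show (4 : ℕ) = 2 ^ 2 from rfl, ← pow_add]
    refine Nat.pow_le_pow_right (by omega) ?_
    obtain ⟨E', hE'⟩ : ∃ E', E = E' + 2 := ⟨E - 2, by omega⟩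
    rw [hE', Nat.add_sub_cancel]
    nlinarith
  rw [loss, ← hT]
  have := t1.trans (hpow _ hs1)
  have := t2.trans (hpow _ hs2)
  have := t3.trans (hpow _ hs3)
  omega


lemma exists_large (a : ℕ) : ∃ P1 : ℕ, ∀ P ≥ P1, 2 * (P ^ a) ^ 2 ≤ 2 ^ P := by
  have h := isLittleO_pow_const_const_pow_of_one_lt (R := ℝ) (2 * a) (r := 2) (by norm_num)
  obtain ⟨P1, hP1⟩ := Filter.eventually_atTop.1 (h.def (show (0 : ℝ) < 1 / 2 by norm_num))
  refine ⟨P1, fun P hP => ?_⟩
  have h' := hP1 P hP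
  rw [Real.norm_of_nonneg (by positivity), Real.norm_of_nonneg (by positivity)] at h'
  rw [← pow_mul, mul_comm a]
  have : (2 : ℝ) * (P : ℝ) ^ (2 * a) ≤ 2 ^ P := by linarith
  exact_mod_cast this

/-- The loss in terms of `P`. -/
lemma loss_bound (k : ℕ) {P a b E : ℕ} (hb : b = (patSize k + 1) * (patSize k + 1) * (a + 2 * k + 4) * 16)
    (hE : E = (2 * a + 4) * (2 * k) + k * (3 * a + 5) + 4) (hP : b + E + 17 * (2 * a + 1) + 2 ≤ P)
    (hTa : numTypes k P ≤ P ^ a) : loss k P ≤ 2 ^ 2 ^ P ^ (a + 4) := by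
  set c := patSize k with hc
  set T := numTypes k P with hT
  have hT0 : 0 < T := Nat.succ_pos _
  have hTP : T ≤ 2 ^ (a * P) := by
    refine hTa.trans ?_
    rw [mul_comm, pow_mul]
    exact Nat.pow_le_pow_left P.lt_two_pow_self.le _
  set W := b * T ^ 2 with hW
  have hW1 : 1 ≤ W := Nat.mul_pos (by rw [hb]; positivity) (Nat.pow_pos hT0)
  have hscale : ∀ t, scale k T t ≤ 2 ^ (W ^ t * P) := by
    intro t
    induction t with
    | zero => exact Nat.one_le_two_pow
    | succ t ih =>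
      have hWt : 1 ≤ W ^ t := Nat.one_le_pow _ _ hW1
      refine (growth k a hTP hT0 (Nat.le_mul_of_pos_left _ hWt) ?_ ih).trans (le_of_eq ?_)
      · exact Nat.one_le_iff_ne_zero.2 (Nat.mul_ne_zero (by omega) (by omega))
      · rw [← hc, ← hb, ← hW, pow_succ]
        ring_nf
  set D := numScales k P with hD
  set e := W ^ D * P with he
  have htop : top k P ≤ 2 ^ e := hscale D
  have hD1 : 1 ≤ D := by
    rw [hD, numScales, ← hT]
    exact Nat.mul_pos (Nat.mul_pos (by omega) (Nat.pow_pos (by omega))) hT0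
  have hPT : P * T ≤ e := by
    calc P * T ≤ P * W := Nat.mul_le_mul_left _
          ((Nat.le_self_pow (by omega) T).trans (Nat.le_mul_of_pos_left _ (by subst hb; positivity)))
      _ ≤ P * W ^ D := Nat.mul_le_mul_left _ (Nat.le_self_pow (by omega) W)
      _ = e := mul_comm _ _
  have hPe : P ≤ e := (Nat.le_mul_of_pos_right _ hT0).trans hPT
  have he1 : 1 ≤ e := le_trans (by omega) hPe
  have hloss : loss k P ≤ 2 ^ (E * e) := hE ▸ loss_le k a hTP hPT hPe he1 htop
  refine hloss.trans (Nat.pow_le_pow_right (by omega) ?_)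
  -- `E * e` is at most `2 ^ (P ^ (a + 5))`
  have hWP : W ≤ P ^ (2 * a + 1) := by
    calc W ≤ P * (P ^ a) ^ 2 := Nat.mul_le_mul (by omega) (Nat.pow_le_pow_left hTa _)
      _ = _ := by ring
  have hEe : E * e ≤ P ^ ((2 * a + 1) * D + 2) := by
    calc E * e ≤ P * ((P ^ (2 * a + 1)) ^ D * P) := by rw [he]; gcongr; omega
      _ = _ := by rw [← pow_mul]; ring
  refine hEe.trans ((Nat.pow_le_pow_left P.lt_two_pow_self.le _).trans ?_)
  rw [← pow_mul]
  refine Nat.pow_le_pow_right (by omega) ?_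
  calc P * ((2 * a + 1) * D + 2) ≤ P * (17 * (2 * a + 1) * (P ^ 2 * P ^ a)) := by
        refine Nat.mul_le_mul_left _ ?_
        rw [hD, numScales, ← hT]
        have : 2 ≤ P ^ 2 * P ^ a := le_trans (by nlinarith : 2 ≤ P ^ 2)
          (Nat.le_mul_of_pos_right _ (Nat.pow_pos (by omega)))
        have : P ^ 2 * T ≤ P ^ 2 * P ^ a := Nat.mul_le_mul_left _ hTa
        nlinarith
    _ ≤ P * (P * (P ^ 2 * P ^ a)) := by gcongr; omega
    _ = P ^ (a + 4) := by ring

theorem removal (k : ℕ) (H : Fin k → Fin k → Bool) : ∃ C : ℕ,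
    ∀ n : ℕ, 1 ≤ n → ∀ ε : ℝ, 0 < ε → ∀ A : Fin n → Fin n → Bool, Far H ε A →
      n ^ (2 * k) ≤ 2 ^ 2 ^ ((C * ⌈1 / ε⌉₊) ^ C) * copyCount H A := by
  set c := patSize k with hc
  set a := 3 * c + 1 with ha
  set b := (c + 1) * (c + 1) * (a + 2 * k + 4) * 16 with hb
  set E := (2 * a + 4) * (2 * k) + k * (3 * a + 5) + 4 with hE
  obtain ⟨P1, hP1⟩ := exists_large a
  set P0 := P1 + 233 + 2 * (c + 1) + b + E + 17 * (2 * a + 1) with hP0
  refine ⟨P0 + a + 6, fun n hn ε hε A hA => ?_⟩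
  set q := ⌈1 / ε⌉₊ with hq
  set P := P0 * q with hP
  have hq0 : 1 ≤ q := Nat.one_le_ceil_iff.2 (by positivity)
  have hPP0 : P0 ≤ P := Nat.le_mul_of_pos_right _ hq0
  set T := numTypes k P with hT
  have hTa : T ≤ P ^ a := by
    have h1 : P * P + 1 ≤ P * (P * P) := by nlinarith
    calc T ≤ (c + 1) * (P * P + 1) ^ c := by
          rw [hT, numTypes, trBound, ← hc, Nat.succ_mul]
          exact Nat.add_le_add_left (Nat.pow_pos (by omega)) _
      _ ≤ P * (P * (P * P)) ^ c := Nat.mul_le_mul (by omega) (Nat.pow_le_pow_left h1 _)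
      _ = P ^ a := by rw [ha]; ring
  have hT0 : 0 < T := Nat.succ_pos _
  have hP2 : 2 * T ^ 2 ≤ 2 ^ P :=
    le_trans (by gcongr) (hP1 P (by omega))
  rcases dichotomy H A (P := P) hn (by omega) hP2 with ⟨B, hB, hd⟩ | h
  · have h1 := hA B hB
    have h2 : (233 : ℝ) ≤ (P : ℝ) * ε := by
      calc (233 : ℝ) = 233 * (1 / ε * ε) := by rw [div_mul_cancel₀ _ hε.ne', mul_one]
        _ ≤ P0 * ((q : ℝ) * ε) := by
            gcongr
            · exact_mod_cast (show 233 ≤ P0 by omega)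
            · exact Nat.le_ceil _
        _ = _ := by rw [hP]; push_cast; ring
    have h3 : (P : ℝ) * diffCount A B ≤ 232 * (n : ℝ) ^ 2 := by exact_mod_cast hd
    have h4 := mul_le_mul_of_nonneg_left h1 (Nat.cast_nonneg P)
    have hn2 : (0 : ℝ) < (n : ℝ) ^ 2 := by
      have : (1 : ℝ) ≤ n := by exact_mod_cast hn
      positivity
    nlinarith
  refine h.trans (Nat.mul_le_mul_right _ ?_)
  refine (loss_bound k hb hE (by omega) hTa).trans ?_
  refine Nat.pow_le_pow_right Nat.two_pos (Nat.pow_le_pow_right Nat.two_pos ?_)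
  calc P ^ (a + 4) ≤ P ^ (P0 + a + 6) := Nat.pow_le_pow_right (by omega) (by omega)
    _ ≤ _ := Nat.pow_le_pow_left (by rw [hP]; exact Nat.mul_le_mul_right _ (by omega)) _

end Vale.Agent.P037.Gen
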