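import Vale.Agent.P037.Gen.Core

/-!
At a scale where the types of rows and columns are present in most parts, either a nearby matrix
has no copy or there are many copies.
-/

namespace Vale.Agent.P037.Gen

open Finset

variable {k n T : ℕ}

lemma diffCount_eq_sum (A B : Fin n → Fin n → Bool) :
    diffCount A B = ∑ r, ∑ c, dis (A r c) (B r c) := by
  rw [diffCount_eq, Finset.card_filter, Fintype.sum_prod_type]
  exact Finset.sum_congr rfl fun r _ => Finset.sum_congr rfl fun c _ => by simp [dis]

/-- The error of a pair of samples. -/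
def err (A : Fin n → Fin n → Bool) (σ τ : Fin n → Fin T) (P : ℕ) {L : ℕ} (hL : 0 < L) {Kr Kc : ℕ}
    (x : Slot T L Kr → Fin n) (y : Slot T L Kc → Fin n) : ℕ :=
  ∑ r, ∑ i : Fin Kr, if pres σ P L Kr (σ r) (iv L r) i then
    (∑ c, ∑ j : Fin Kc, if pres τ P L Kc (τ c) (iv L c) j then
      dis (A (x (σ r, ivF hL r, i)) (y (τ c, ivF hL c, j))) (A r c) else 0) else 0

/-- A pair of samples with small error whose grid has no copy. -/
lemma exists_sample (H : Fin k → Fin k → Bool) (A : Fin n → Fin n → Bool) {P L Kr Kc : ℕ}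
    (σ τ : Fin n → Fin T) (ctr cctr : Fin T → Fin n)
    (hσ : P * ∑ r, rdist A r (ctr (σ r)) ≤ 2 * n ^ 2)
    (hτ : P * ∑ c, rdist (fun a b => A b a) c (cctr (τ c)) ≤ 2 * n ^ 2)
    (hn : 1 ≤ n) (hP : 232 < P) (hL : 0 < L) (hKr0 : 0 < Kr) (hKc0 : 0 < Kc)
    (hcop : ¬ n ^ (2 * k) ≤ 2 * (T * (L * Kr) * (2 * P * T * L * Kr) *
        (T * (L * Kc) * (2 * P * T * L * Kc))) ^ k * copyCount H A) :
    ∃ x ∈ Fintype.piFinset (slot σ (2 * P * T * L * Kr) L Kr),
      ∃ y ∈ Fintype.piFinset (slot τ (2 * P * T * L * Kc) L Kc),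
        ¬ CopyIn H A (univ.image x) (univ.image y) ∧
          P * err A σ τ P hL x y ≤ 36 * (Kr * Kc * n ^ 2) := by
  classical
  set X := (T * (L * Kr) * (2 * P * T * L * Kr) * (T * (L * Kc) * (2 * P * T * L * Kc))) ^ k with hX
  have hT : 0 < T := (σ ⟨0, hn⟩).pos
  set sX := Fintype.piFinset (slot σ (2 * P * T * L * Kr) L Kr) with hsX
  set sY := Fintype.piFinset (slot τ (2 * P * T * L * Kc) L Kc) with hsY
  set At := fun a b => A b a with hAt
  set dR := fun c => ∑ r, dis (A r c) (A (ctr (σ r)) c) with hdR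
  set dC := fun c => rdist At c (cctr (τ c)) with hdC
  -- the error of a sample, averaged over the row samples
  have hrow : ∀ y : Slot T L Kc → Fin n, ∑ x ∈ sX, err A σ τ P hL x y ≤ ∑ c, ∑ j : Fin Kc,
      (sX.card * Kr * (3 * dR c + 2 * dC c) + 2 * Kr * sX.card *
        (if pres τ P L Kc (τ c) (iv L c) j then rdist At (y (τ c, ivF hL c, j)) (cctr (τ c)) else 0)) := by
    intro y
    have hswap : ∑ x ∈ sX, err A σ τ P hL x y = ∑ c, ∑ j : Fin Kc, ∑ x ∈ sX, ∑ r, ∑ i : Fin Kr,
        (if pres σ P L Kr (σ r) (iv L r) i then (if pres τ P L Kc (τ c) (iv L c) j then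
          dis (A (x (σ r, ivF hL r, i)) (y (τ c, ivF hL c, j))) (A r c) else 0) else 0) := by
      conv_rhs => rw [Finset.sum_congr rfl fun c _ => Finset.sum_comm (s := univ (α := Fin Kc)) (t := sX)]
      rw [Finset.sum_comm (s := univ) (t := sX)]
      refine Finset.sum_congr rfl fun x _ => ?_
      simp only [err]
      conv_rhs => rw [Finset.sum_congr rfl fun c _ => Finset.sum_comm (s := univ (α := Fin Kc)) (t := univ (α := Fin n))]
      rw [Finset.sum_comm (s := univ (α := Fin n)) (t := univ (α := Fin n))]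
      refine Finset.sum_congr rfl fun r _ => ?_
      conv_rhs => rw [Finset.sum_congr rfl fun c _ => Finset.sum_comm (s := univ (α := Fin Kc)) (t := univ (α := Fin Kr))]
      rw [Finset.sum_comm (s := univ (α := Fin n)) (t := univ (α := Fin Kr))]
      refine Finset.sum_congr rfl fun i _ => ?_
      by_cases h : pres σ P L Kr (σ r) (iv L r) i <;> simp [h]
    rw [hswap]
    refine Finset.sum_le_sum fun c _ => Finset.sum_le_sum fun j _ => ?_
    set u := y (τ c, ivF hL c, j)
    set v := cctr (τ c)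
    set q : Fin n → Fin Kr → Prop := fun r i => pres σ P L Kr (σ r) (iv L r) i
    have hpt : ∀ x : Slot T L Kr → Fin n, ∀ r, ∀ i : Fin Kr,
        (if pres σ P L Kr (σ r) (iv L r) i then (if pres τ P L Kc (τ c) (iv L c) j then
          dis (A (x (σ r, ivF hL r, i)) u) (A r c) else 0) else 0) ≤
        (if pres σ P L Kr (σ r) (iv L r) i then
          (fun a w => dis (A w c) (A (ctr a) c) + dis (A w c) (A w v) +
            (if pres τ P L Kc (τ c) (iv L c) j then dis (A w u) (A w v) else 0))
            (σ r) (x (σ r, ivF hL r, i)) else 0) + dis (A r c) (A (ctr (σ r)) c) := by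
      intro x r i
      by_cases hp : pres σ P L Kr (σ r) (iv L r) i
      · rw [if_pos hp, if_pos hp]
        by_cases hq : pres τ P L Kc (τ c) (iv L c) j
        · simp only [if_pos hq]
          set w := x (σ r, ivF hL r, i)
          have h1 := dis_tri (A w u) (A w v) (A r c)
          have h2 := dis_tri (A w v) (A w c) (A r c)
          have h3 := dis_tri (A w c) (A (ctr (σ r)) c) (A r c)
          rw [dis_comm (A w v) (A w c)] at h2
          rw [dis_comm (A (ctr (σ r)) c) (A r c)] at h3
          omega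
        · simp only [if_neg hq]; exact Nat.zero_le _
      · rw [if_neg hp, if_neg hp]; exact Nat.zero_le _
    refine (Finset.sum_le_sum fun x _ => Finset.sum_le_sum fun r _ => Finset.sum_le_sum
      fun i _ => hpt x r i).trans ?_
    simp only [Finset.sum_add_distrib]
    refine (Nat.add_le_add_right (avg σ hL hKr0 (fun a w => dis (A w c) (A (ctr a) c) +
      dis (A w c) (A w v) + (if pres τ P L Kc (τ c) (iv L c) j then dis (A w u) (A w v) else 0))) _).trans
      (le_of_eq ?_)
    have e1 : ∑ r, dis (A r c) (A r v) = dC c := by rw [hdC]; simp only [rdist_eq, hAt, v]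
    have e2 : ∑ r, (if pres τ P L Kc (τ c) (iv L c) j then dis (A r u) (A r v) else 0) =
        if pres τ P L Kc (τ c) (iv L c) j then rdist At u v else 0 := by
      split
      · simp only [rdist_eq, hAt]
      · simp
    simp only [Finset.sum_add_distrib, e1, e2, Finset.sum_const, smul_eq_mul, Finset.card_univ,
      Fintype.card_fin, ← Finset.mul_sum, hdR]
    ring
  have hdRs : ∑ c, dR c = ∑ r, rdist A r (ctr (σ r)) := by
    simp only [hdR, rdist_eq]; exact Finset.sum_comm
  have htot : P * ∑ x ∈ sX, ∑ y ∈ sY, err A σ τ P hL x y ≤ 18 * (Kr * Kc * n ^ 2) * (sX.card * sY.card) := by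
    rw [Finset.sum_comm]
    refine (Nat.mul_le_mul_left _ (Finset.sum_le_sum fun y _ => hrow y)).trans ?_
    simp only [Finset.sum_add_distrib, Finset.sum_const, smul_eq_mul, Finset.card_univ,
      Fintype.card_fin, ← Finset.mul_sum]
    have h1 := avg τ (P := P) hL hKc0 (fun b w => rdist At w (cctr b))
    rw [← hsY] at h1
    calc _ ≤ P * (sY.card * (Kc * (sX.card * Kr * (3 * (∑ c, dR c) + 2 * ∑ c, dC c))) +
          2 * Kr * sX.card * (2 * Kc * sY.card * ∑ c, dC c)) := by
          refine Nat.mul_le_mul_left _ (Nat.add_le_add (le_of_eq ?_) (Nat.mul_le_mul_left _ h1))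
          ring
      _ = Kr * Kc * (sX.card * sY.card) * (3 * (P * ∑ c, dR c) + 6 * (P * ∑ c, dC c)) := by ring
      _ ≤ Kr * Kc * (sX.card * sY.card) * (3 * (2 * n ^ 2) + 6 * (2 * n ^ 2)) := by
          rw [hdRs]; gcongr
      _ = _ := by ring
  -- a good sample
  have hYr : 1 ≤ 2 * P * T * L * Kr := by
    have : 0 < 2 * P * T * L * Kr := by positivity
    omega
  have hYc : 1 ≤ 2 * P * T * L * Kc := by
    have : 0 < 2 * P * T * L * Kc := by positivity
    omega
  set bad := (sX ×ˢ sY).filter fun xy => CopyIn H A (univ.image xy.1) (univ.image xy.2) with hbad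
  set good := (sX ×ˢ sY).filter fun xy => ¬ CopyIn H A (univ.image xy.1) (univ.image xy.2) with hgood
  have hb := card_bad H A _ _ (slot_card σ hYr L Kr) (slot_card τ hYc L Kc)
  simp only [Fintype.card_prod, Fintype.card_fin] at hb
  rw [← hsX, ← hsY, ← hbad] at hb
  have hN : 0 < sX.card * sY.card := Nat.mul_pos
    (Finset.card_pos.2 (Fintype.piFinset_nonempty.2 fun e => slot_nonempty σ hn _ _ _ e))
    (Finset.card_pos.2 (Fintype.piFinset_nonempty.2 fun e => slot_nonempty τ hn _ _ _ e))
  have hbsmall : 2 * bad.card < sX.card * sY.card := by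
    refine Nat.lt_of_mul_lt_mul_right (a := n ^ (2 * k)) ?_
    calc 2 * bad.card * n ^ (2 * k) ≤ 2 * (copyCount H A * X * (sX.card * sY.card)) := by
          rw [mul_assoc]; exact Nat.mul_le_mul_left _ hb
      _ = 2 * X * copyCount H A * (sX.card * sY.card) := by ring
      _ < n ^ (2 * k) * (sX.card * sY.card) := Nat.mul_lt_mul_of_pos_right (not_le.1 hcop) hN
      _ = _ := mul_comm _ _
  have hsum : bad.card + good.card = sX.card * sY.card := by
    rw [hbad, hgood, Finset.card_filter_add_card_filter_not, Finset.card_product]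
  obtain ⟨⟨x, y⟩, hxy, hmin⟩ := good.exists_min_image (fun xy => err A σ τ P hL xy.1 xy.2)
    (Finset.card_pos.1 (by omega))
  obtain ⟨hxy', hfree⟩ := Finset.mem_filter.1 hxy
  obtain ⟨hx, hy⟩ := Finset.mem_product.1 hxy'
  have herr36 : P * err A σ τ P hL x y ≤ 36 * (Kr * Kc * n ^ 2) := by
    refine Nat.le_of_mul_le_mul_right ?_ hN
    calc P * err A σ τ P hL x y * (sX.card * sY.card) ≤ P * err A σ τ P hL x y * (2 * good.card) :=
          Nat.mul_le_mul_left _ (by omega)
      _ = 2 * (P * ∑ _xy ∈ good, err A σ τ P hL x y) := by rw [Finset.sum_const, smul_eq_mul]; ring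
      _ ≤ 2 * (P * ∑ xy ∈ sX ×ˢ sY, err A σ τ P hL xy.1 xy.2) := by
          gcongr
          exact (Finset.sum_le_sum hmin).trans
            (Finset.sum_le_sum_of_subset (Finset.filter_subset _ _))
      _ ≤ 2 * (18 * (Kr * Kc * n ^ 2) * (sX.card * sY.card)) := by
          rw [Finset.sum_product]; exact Nat.mul_le_mul_left _ htot
      _ = _ := by ring
  exact ⟨x, hx, y, hy, hfree, herr36⟩

/-- The main step at a fixed scale. -/
theorem near (H : Fin k → Fin k → Bool) (A : Fin n → Fin n → Bool) {P L Kr Kc : ℕ}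
    (σ τ : Fin n → Fin T) (ctr cctr : Fin T → Fin n)
    (hσ : P * ∑ r, rdist A r (ctr (σ r)) ≤ 2 * n ^ 2)
    (hτ : P * ∑ c, rdist (fun a b => A b a) c (cctr (τ c)) ≤ 2 * n ^ 2)
    (hn : 1 ≤ n) (hP : 232 < P) (hL : 0 < L) (hKr0 : 0 < Kr) (hKc0 : 0 < Kc)
    (har : P * absent σ P L Kr * n ≤ 2 * Kr * n ^ 2) (hac : P * absent τ P L Kc * n ≤ 2 * Kc * n ^ 2)
    (hKr : 2 * (trBound k (T * L * Kc) + 1) ^ T * k ≤ Kr)
    (hKc : 2 * (trBound k (T * L) + 1) ^ T * k ≤ Kc) :
    (∃ B, copyCount H B = 0 ∧ P * diffCount A B ≤ 232 * n ^ 2) ∨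
      n ^ (2 * k) ≤ 2 * (T * (L * Kr) * (2 * P * T * L * Kr) *
        (T * (L * Kc) * (2 * P * T * L * Kc))) ^ k * copyCount H A := by
  classical
  by_cases hcop : n ^ (2 * k) ≤ 2 * (T * (L * Kr) * (2 * P * T * L * Kr) *
      (T * (L * Kc) * (2 * P * T * L * Kc))) ^ k * copyCount H A
  · exact Or.inr hcop
  refine Or.inl ?_
  obtain ⟨x, hx, y, hy, hfree, herr36⟩ :=
    exists_sample H A σ τ ctr cctr hσ hτ hn hP hL hKr0 hKc0 hcop
  set At := fun a b => A b a with hAt
  -- representatives of the rows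
  set g := fun r v => ∑ c, ∑ j : Fin Kc, if pres τ P L Kc (τ c) (iv L c) j then
    dis (A v (y (τ c, ivF hL c, j))) (A r c) else 0 with hg
  have htr : ((univ.image x).image (trace A (univ.image y))).card ≤ trBound k (T * L * Kc) := by
    refine (traces_card H A hfree).trans (trBound_mono k (Finset.card_image_le.trans ?_))
    simp [mul_assoc]
  obtain ⟨keep, rep, hrep, hrepc, hcost, hreal⟩ :=
    reps A σ (P := P) hL hKr0 hKr x hx (univ.image y) htr le_rfl g (Kc * n)
  have h1 : ∑ r, ∑ i : Fin Kr, (if pres σ P L Kr (σ r) (iv L r) i then g r (x (σ r, ivF hL r, i))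
      else Kc * n) = err A σ τ P hL x y + Kc * n * absent σ P L Kr := by
    rw [absent_eq σ P hL, Finset.mul_sum, err, ← Finset.sum_add_distrib]
    refine Finset.sum_congr rfl fun r _ => ?_
    rw [Finset.mul_sum, ← Finset.sum_add_distrib]
    exact Finset.sum_congr rfl fun i _ => by split <;> simp [hg]
  set S1 := ∑ r, if r ∈ keep then g r (rep r) else Kc * n with hS1
  -- representatives of the columns
  set g' := fun c v => ∑ r, if r ∈ keep then dis (A (rep r) v) (A r c) else 0 with hg'
  have hXsub : keep.image rep ⊆ univ.image x := fun v hv => by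
    obtain ⟨r, hr, rfl⟩ := Finset.mem_image.1 hv
    exact hrep r hr
  have htr' : ((univ.image y).image (trace At (keep.image rep))).card ≤ trBound k (T * L) :=
    (traces_card (fun i j => H j i) At fun h =>
      hfree (h.transpose.mono hXsub subset_rfl)).trans (trBound_mono k hrepc)
  obtain ⟨keep', rep', hrep', -, hcost', hreal'⟩ :=
    reps At τ (P := P) hL hKc0 hKc y hy (keep.image rep) htr' le_rfl g' n
  set S2 := ∑ c, if c ∈ keep' then g' c (rep' c) else n with hS2
  have h2 : ∑ c, ∑ j : Fin Kc, (if pres τ P L Kc (τ c) (iv L c) j then g' c (y (τ c, ivF hL c, j))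
      else n) ≤ n * absent τ P L Kc + S1 := by
    have e : ∑ c, ∑ j : Fin Kc, (if pres τ P L Kc (τ c) (iv L c) j then g' c (y (τ c, ivF hL c, j))
        else n) = n * absent τ P L Kc + ∑ r, if r ∈ keep then g r (rep r) else 0 := by
      have hr : ∀ r, (if r ∈ keep then g r (rep r) else 0) = ∑ c, ∑ j : Fin Kc,
          if pres τ P L Kc (τ c) (iv L c) j then
            (if r ∈ keep then dis (A (rep r) (y (τ c, ivF hL c, j))) (A r c) else 0) else 0 := by
        intro r
        by_cases hr : r ∈ keep <;> simp [hr, hg]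
      rw [Finset.sum_congr rfl fun r _ => hr r]
      conv_rhs => rw [Finset.sum_comm, absent_eq τ P hL, Finset.mul_sum, ← Finset.sum_add_distrib]
      refine Finset.sum_congr rfl fun c _ => ?_
      rw [Finset.sum_comm (s := univ (α := Fin n)) (t := univ (α := Fin Kc)), Finset.mul_sum,
        ← Finset.sum_add_distrib]
      refine Finset.sum_congr rfl fun j _ => ?_
      split <;> simp [hg']
    rw [e]
    exact Nat.add_le_add_left (Finset.sum_le_sum fun r _ => by split <;> simp) _
  have hbudget : P * (n * (univ.filter fun r => r ∉ keep).card + S2) ≤ 232 * n ^ 2 := by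
    have hD : Kc * n * (univ.filter fun r => r ∉ keep).card ≤ S1 := by
      calc _ = ∑ r, if r ∈ keep then 0 else Kc * n := by
            rw [Finset.card_filter, Finset.mul_sum]
            exact Finset.sum_congr rfl fun r _ => by split <;> simp_all
        _ ≤ _ := Finset.sum_le_sum fun r _ => by split <;> simp
    have hKS1 : Kr * S1 ≤ 2 * (err A σ τ P hL x y + Kc * n * absent σ P L Kr) := hcost.trans (le_of_eq (by rw [h1]))
    have hKS2 : Kc * S2 ≤ 2 * (n * absent τ P L Kc + S1) := hcost'.trans (Nat.mul_le_mul_left _ h2)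
    refine Nat.le_of_mul_le_mul_left ?_ (Nat.mul_pos hKr0 hKc0)
    set D := (univ.filter fun r => r ∉ keep).card
    calc Kr * Kc * (P * (n * D + S2)) = P * (Kr * (Kc * n * D) + Kr * (Kc * S2)) := by ring
      _ ≤ P * (Kr * S1 + Kr * (2 * (n * absent τ P L Kc + S1))) := by gcongr
      _ = 3 * (P * (Kr * S1)) + 2 * Kr * (P * absent τ P L Kc * n) := by ring
      _ ≤ 3 * (P * (2 * (err A σ τ P hL x y + Kc * n * absent σ P L Kr))) + 2 * Kr * (2 * Kc * n ^ 2) := by gcongr
      _ = 6 * (P * err A σ τ P hL x y) + 6 * Kc * (P * absent σ P L Kr * n) + 4 * Kr * Kc * n ^ 2 := by ring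
      _ ≤ 6 * (36 * (Kr * Kc * n ^ 2)) + 6 * Kc * (2 * Kr * n ^ 2) + 4 * Kr * Kc * n ^ 2 := by gcongr
      _ = Kr * Kc * (232 * n ^ 2) := by ring
  have hbig : 232 * n ^ 2 < P * n ^ 2 := Nat.mul_lt_mul_of_pos_right hP (Nat.pow_pos hn)
  have hkeep : keep.Nonempty := by
    rw [Finset.nonempty_iff_ne_empty]
    intro h
    simp [h, Nat.mul_add, ← sq] at hbudget
    omega
  have hkeep' : keep'.Nonempty := by
    rw [Finset.nonempty_iff_ne_empty]
    intro h
    simp [hS2, h, Nat.mul_add, ← sq] at hbudget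
    omega
  obtain ⟨π, hπ, hπk, hπid⟩ := exists_retraction keep hkeep
  obtain ⟨π', hπ', hπk', hπid'⟩ := exists_retraction keep' hkeep'
  refine ⟨fun r c => A (rep (π r)) (rep' (π' c)), ?_, (Nat.mul_le_mul_left _ ?_).trans hbudget⟩
  · by_contra hne
    obtain ⟨r, c, hr, hc, hval⟩ := exists_copy hne
    obtain ⟨R, hR, hRm, hRv⟩ := hreal (π ∘ r) (hπ.comp hr.monotone) fun i => hπk _
    obtain ⟨C, hC, hCm, hCv⟩ := hreal' (π' ∘ c) (hπ'.comp hc.monotone) fun j => hπk' _
    refine hfree ⟨R, C, hR, hC, hRm, hCm, fun i j => ?_⟩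
    rw [hRv i _ (hCm j), ← hval i j]
    exact hCv j _ (Finset.mem_image_of_mem rep (hπk (r i)))
  · rw [diffCount_eq_sum, hS2, Finset.card_filter, Finset.mul_sum]
    calc ∑ r, ∑ c, dis (A r c) (A (rep (π r)) (rep' (π' c)))
        ≤ ∑ r, ((n * if r ∉ keep then 1 else 0) + ∑ c, (if c ∈ keep' then
            (if r ∈ keep then dis (A (rep r) (rep' c)) (A r c) else 0) else 1)) := by
          refine Finset.sum_le_sum fun r _ => ?_
          by_cases hr : r ∈ keep
          · refine le_trans (Finset.sum_le_sum fun c _ => ?_) (Nat.le_add_left _ _)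
            rw [hπid r hr]
            by_cases hc : c ∈ keep'
            · rw [if_pos hc, if_pos hr, hπid' c hc, dis_comm]
            · rw [if_neg hc]; exact dis_le_one _ _
          · refine le_trans ?_ (Nat.le_add_right _ _)
            rw [if_pos hr, mul_one]
            exact (Finset.sum_le_card_nsmul _ _ 1 fun c _ => dis_le_one _ _).trans (by simp)
      _ = _ := by
          rw [Finset.sum_add_distrib, Finset.sum_comm (s := univ) (t := univ)]
          congr 1
          refine Finset.sum_congr rfl fun c _ => ?_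
          by_cases hc : c ∈ keep' <;> simp [hc, hg']

end Vale.Agent.P037.Gen
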