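import Vale.Agent.P037.Gen.Sample

/-!
Few copies force the rows to cluster around polynomially many rows.
-/

namespace Vale.Agent.P037.Gen

open Finset

variable {k n : ℕ}

/-- The number of disagreements of two rows. -/
def rdist (A : Fin n → Fin n → Bool) (x y : Fin n) : ℕ :=
  (univ.filter fun c => A x c ≠ A y c).card

lemma rdist_comm (A : Fin n → Fin n → Bool) (x y : Fin n) : rdist A x y = rdist A y x := by
  simp only [rdist, ne_comm]

lemma rdist_le (A : Fin n → Fin n → Bool) (x y : Fin n) : rdist A x y ≤ n :=
  (Finset.card_le_univ _).trans (by simp)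

/-- The number of centres at resolution `1 / P`. -/
def numTypes (k P : ℕ) : ℕ := trBound k (P * P) + 1

lemma two_pow_le (P : ℕ) (hP : 2 ≤ P) : 2 * (P - 1) ^ P ≤ P ^ P := by
  obtain ⟨a, rfl⟩ : ∃ a, P = a + 1 := ⟨P - 1, by omega⟩
  simp only [Nat.add_sub_cancel]
  have h : ∀ j, a ^ (j + 1) + (j + 1) * a ^ j ≤ (a + 1) ^ (j + 1) := fun j => by
    induction j with
    | zero => simp
    | succ j ih =>
      calc a ^ (j + 1 + 1) + (j + 1 + 1) * a ^ (j + 1)
          ≤ a ^ (j + 1 + 1) + (j + 1 + 1) * a ^ (j + 1) + (j + 1) * a ^ j := Nat.le_add_right _ _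
        _ = (a ^ (j + 1) + (j + 1) * a ^ j) * (a + 1) := by ring
        _ ≤ (a + 1) ^ (j + 1) * (a + 1) := Nat.mul_le_mul_right _ ih
        _ = _ := (pow_succ _ _).symm
  have := h a
  have : a ^ (a + 1) ≤ (a + 1) * a ^ a := by
    rw [pow_succ']; exact Nat.mul_le_mul_right _ (Nat.le_succ a)
  omega

/-- Either few centres approximate the rows, or there are many copies. -/
theorem pack (H : Fin k → Fin k → Bool) (A : Fin n → Fin n → Bool) {P : ℕ} (hn : 1 ≤ n)
    (hP2 : 2 ≤ P) (hP : 2 * numTypes k P ^ 2 ≤ 2 ^ P) :
    (∃ (σ : Fin n → Fin (numTypes k P)) (ctr : Fin (numTypes k P) → Fin n),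
        P * ∑ r, rdist A r (ctr (σ r)) ≤ 2 * n ^ 2) ∨
      n ^ (2 * k) ≤
        2 * P ^ numTypes k P * (numTypes k P * (P * P)) ^ k * copyCount H A := by
  classical
  set T := numTypes k P with hT
  by_cases hcov : ∃ t : ℕ, t < T ∧ ∃ x : Fin t → Fin n,
      P * (univ.filter fun r => ∀ i, n < P * rdist A r (x i)).card < n
  · refine Or.inl ?_
    obtain ⟨t, ht, x, hx⟩ := hcov
    set ctr : Fin T → Fin n := fun a => if h : (a : ℕ) < t then x ⟨a, h⟩ else ⟨0, hn⟩ with hctr
    set far := univ.filter fun r => ∀ i, n < P * rdist A r (x i) with hfar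
    have hex : ∀ r, ∃ a : Fin T, r ∉ far → P * rdist A r (ctr a) ≤ n := fun r => by
      by_cases hr : r ∈ far
      · exact ⟨⟨0, by rw [hT, numTypes]; omega⟩, fun h => absurd hr h⟩
      · have : ¬ ∀ i, n < P * rdist A r (x i) := fun h => hr (Finset.mem_filter.2 ⟨mem_univ _, h⟩)
        push Not at this
        obtain ⟨i, hi⟩ := this
        exact ⟨⟨i, by omega⟩, fun _ => by simpa [hctr] using hi⟩
    choose σ hσ using hex
    refine ⟨σ, ctr, ?_⟩
    rw [Finset.mul_sum, ← Finset.sum_filter_add_sum_filter_not univ (fun r => r ∈ far)]
    calc _ ≤ far.card * (P * n) + n * n := by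
          refine Nat.add_le_add ?_ ?_
          · refine (Finset.sum_le_card_nsmul _ _ (P * n) fun r _ =>
              Nat.mul_le_mul_left _ (rdist_le _ _ _)).trans ?_
            rw [smul_eq_mul, Finset.filter_mem_eq_inter, Finset.univ_inter]
          · refine (Finset.sum_le_card_nsmul _ _ n fun r hr =>
              hσ r (Finset.mem_filter.1 hr).2).trans ?_
            rw [smul_eq_mul]
            exact Nat.mul_le_mul_right _ ((Finset.card_le_univ _).trans (by simp))
      _ = P * far.card * n + n * n := by ring
      _ ≤ n * n + n * n := by gcongr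
      _ = 2 * n ^ 2 := by ring
  · refine Or.inr ?_
    push Not at hcov
    set W := fun t => (univ : Finset (Fin t → Fin n)).filter fun x =>
      ∀ i j, i ≠ j → n < P * rdist A (x i) (x j) with hW
    have hWc : ∀ t, t ≤ T → n ^ t ≤ P ^ t * (W t).card := by
      intro t
      induction t with
      | zero =>
        intro _
        have : (W 0).Nonempty :=
          ⟨fun i => i.elim0, Finset.mem_filter.2 ⟨mem_univ _, fun i => i.elim0⟩⟩
        simpa using this.card_pos
      | succ t ih =>
        intro ht
        set opt := fun x : Fin t → Fin n => univ.filter fun r => ∀ i, n < P * rdist A r (x i)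
        have hopt : ∀ x, n ≤ P * (opt x).card := fun x => hcov t (by omega) x
        have hle : ((W t).sigma opt).card ≤ (W (t + 1)).card := by
          refine Finset.card_le_card_of_injOn (fun p => Fin.snoc p.1 p.2) (fun p hp => ?_)
            fun p _ p' _ h => ?_
          · rw [Finset.mem_coe, Finset.mem_sigma] at hp
            obtain ⟨h1, h2⟩ := hp
            simp only [hW, opt, Finset.mem_filter, Finset.mem_univ, true_and] at h1 h2
            simp only [hW, Finset.coe_filter, Finset.mem_univ, true_and, Set.mem_setOf_eq]
            intro i j hij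
            induction i using Fin.lastCases with
            | last =>
              induction j using Fin.lastCases with
              | last => exact absurd rfl hij
              | cast j => simpa using h2 j
            | cast i =>
              induction j using Fin.lastCases with
              | last => simpa [rdist_comm A (p.1 i) p.2] using h2 i
              | cast j => simpa using h1 i j fun h => hij (by rw [h])
          · obtain ⟨a, b⟩ := p
            obtain ⟨a', b'⟩ := p'
            have h1 := congrArg Fin.init h
            have h2 := congrFun h (Fin.last t)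
            simp only [Fin.init_snoc] at h1
            simp only [Fin.snoc_last] at h2
            rw [h1, h2]
        calc n ^ (t + 1) = n ^ t * n := pow_succ _ _
          _ ≤ P ^ t * (W t).card * n := Nat.mul_le_mul_right _ (ih (by omega))
          _ = P ^ t * ∑ _x ∈ W t, n := by rw [Finset.sum_const, smul_eq_mul, mul_assoc]
          _ ≤ P ^ t * ∑ x ∈ W t, P * (opt x).card :=
              Nat.mul_le_mul_left _ (Finset.sum_le_sum fun x _ => hopt x)
          _ = P ^ (t + 1) * ((W t).sigma opt).card := by
              rw [← Finset.mul_sum, Finset.card_sigma, pow_succ]; ring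
          _ ≤ _ := Nat.mul_le_mul_left _ hle
    set m := P * P with hm
    set samples := Fintype.piFinset fun _ : Fin T => (univ : Finset (Fin n))
    set csamples := Fintype.piFinset fun _ : Fin m => (univ : Finset (Fin n))
    set bad := (samples ×ˢ csamples).filter fun xy =>
      CopyIn H A (univ.image xy.1) (univ.image xy.2) with hbad
    -- for separated rows, half of the column samples separate the traces
    have hy : ∀ x ∈ W T, n ^ m ≤ 2 * (csamples.filter fun y =>
        CopyIn H A (univ.image x) (univ.image y)).card := by
      intro x hx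
      simp only [hW, Finset.mem_filter, Finset.mem_univ, true_and] at hx
      set agree := fun ij : Fin T × Fin T => univ.filter fun c => A (x ij.1) c = A (x ij.2) c
      set off := (univ : Finset (Fin T × Fin T)).filter fun ij => ij.1 ≠ ij.2
      set good := csamples.filter fun y => CopyIn H A (univ.image x) (univ.image y)
      have hcs : csamples.card = n ^ m := by simp [csamples]
      have hsub : csamples ⊆ good ∪ off.biUnion fun ij =>
          Fintype.piFinset fun _ : Fin m => agree ij := by
        intro y hy
        by_cases hc : CopyIn H A (univ.image x) (univ.image y)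
        · exact Finset.mem_union_left _ (Finset.mem_filter.2 ⟨hy, hc⟩)
        · refine Finset.mem_union_right _ ?_
          have htr := traces_card H A hc
          by_contra hno
          have hinj : Set.InjOn (trace A (univ.image y) ∘ x) (univ : Finset (Fin T)) := by
            intro i _ j _ hij
            by_contra hne
            refine hno (Finset.mem_biUnion.2
              ⟨(i, j), Finset.mem_filter.2 ⟨mem_univ _, hne⟩, ?_⟩)
            rw [Fintype.mem_piFinset]
            exact fun l => Finset.mem_filter.2 ⟨mem_univ _,
              trace_eq hij (Finset.mem_image_of_mem _ (mem_univ l))⟩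
          rw [Finset.image_image, Finset.card_image_of_injOn hinj, Finset.card_univ,
            Fintype.card_fin] at htr
          have := htr.trans (trBound_mono k (Finset.card_image_le (s := (univ : Finset (Fin m)))))
          simp [hT, numTypes, hm] at this
      have hoff : ∀ ij ∈ off, P * (agree ij).card ≤ (P - 1) * n := fun ij hij => by
        have h1 := hx ij.1 ij.2 (Finset.mem_filter.1 hij).2
        have h2 : (agree ij).card + rdist A (x ij.1) (x ij.2) = n := by
          rw [rdist, Finset.card_filter_add_card_filter_not]; simp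
        obtain ⟨a, rfl⟩ : ∃ a, P = a + 1 := ⟨P - 1, by omega⟩
        simp only [Nat.add_sub_cancel]
        nlinarith
      have h3 := (Finset.card_le_card hsub).trans ((Finset.card_union_le _ _).trans
        (Nat.add_le_add_left Finset.card_biUnion_le _))
      rw [hcs] at h3
      have h4 : P ^ m * ∑ ij ∈ off, (Fintype.piFinset fun _ : Fin m => agree ij).card ≤
          T ^ 2 * ((P - 1) * n) ^ m := by
        rw [Finset.mul_sum]
        refine (Finset.sum_le_card_nsmul _ _ (((P - 1) * n) ^ m) fun ij hij => ?_).trans ?_
        · rw [Fintype.card_piFinset, Finset.prod_const, Finset.card_univ, Fintype.card_fin,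
            ← mul_pow]
          exact Nat.pow_le_pow_left (hoff ij hij) _
        · rw [smul_eq_mul]
          exact Nat.mul_le_mul_right _ ((Finset.card_le_univ _).trans (by simp [sq]))
      have h5 : 2 * T ^ 2 * (P - 1) ^ m ≤ P ^ m := by
        calc 2 * T ^ 2 * (P - 1) ^ m ≤ 2 ^ P * ((P - 1) ^ P) ^ P := by
              rw [← pow_mul]; exact Nat.mul_le_mul_right _ hP
          _ = (2 * (P - 1) ^ P) ^ P := by rw [mul_pow]
          _ ≤ (P ^ P) ^ P := Nat.pow_le_pow_left (two_pow_le P hP2) _
          _ = P ^ m := by rw [← pow_mul]
      have hPm : 0 < P ^ m := Nat.pow_pos (by omega)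
      set S := ∑ ij ∈ off, (Fintype.piFinset fun _ : Fin m => agree ij).card
      have h7 : 2 * (P ^ m * S) ≤ P ^ m * n ^ m := by
        calc 2 * (P ^ m * S) ≤ 2 * (T ^ 2 * ((P - 1) * n) ^ m) := Nat.mul_le_mul_left _ h4
          _ = 2 * T ^ 2 * (P - 1) ^ m * n ^ m := by rw [mul_pow]; ring
          _ ≤ _ := Nat.mul_le_mul_right _ h5
      have h8 : 2 * P ^ m * n ^ m ≤ 2 * P ^ m * (good.card + S) := Nat.mul_le_mul_left _ h3
      refine Nat.le_of_mul_le_mul_left ?_ hPm
      linarith
    have hbadc : n ^ T * n ^ m ≤ 2 * P ^ T * bad.card := by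
      have h1 : ((W T).sigma fun x => csamples.filter fun y =>
          CopyIn H A (univ.image x) (univ.image y)).card ≤ bad.card :=
        Finset.card_le_card_of_injOn (fun p => (p.1, p.2))
          (fun p hp => by
            simp only [Finset.mem_coe, Finset.mem_sigma, Finset.mem_filter] at hp
            obtain ⟨-, h2, h3⟩ := hp
            exact Finset.mem_filter.2 ⟨Finset.mem_product.2
              ⟨Fintype.mem_piFinset.2 fun _ => mem_univ _, h2⟩, h3⟩)
          (fun p _ p' _ h => by cases p; cases p'; simpa using h)
      calc n ^ T * n ^ m ≤ P ^ T * (W T).card * n ^ m := Nat.mul_le_mul_right _ (hWc T le_rfl)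
        _ = P ^ T * ∑ _x ∈ W T, n ^ m := by rw [Finset.sum_const, smul_eq_mul, mul_assoc]
        _ ≤ P ^ T * ∑ x ∈ W T, 2 * (csamples.filter fun y =>
              CopyIn H A (univ.image x) (univ.image y)).card :=
            Nat.mul_le_mul_left _ (Finset.sum_le_sum hy)
        _ = 2 * P ^ T * ((W T).sigma fun x => csamples.filter fun y =>
              CopyIn H A (univ.image x) (univ.image y)).card := by
            rw [← Finset.mul_sum, Finset.card_sigma]; ring
        _ ≤ _ := Nat.mul_le_mul_left _ h1
    have h2 := card_bad H A (fun _ : Fin T => (univ : Finset (Fin n)))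
      (fun _ : Fin m => (univ : Finset (Fin n))) (Y := 1) (Z := 1) (by simp) (by simp)
    simp only [Fintype.card_fin, mul_one, Fintype.card_piFinset, Finset.prod_const,
      Finset.card_univ] at h2
    refine Nat.le_of_mul_le_mul_right ?_ (Nat.pow_pos (n := T + m) hn)
    calc n ^ (2 * k) * n ^ (T + m) = n ^ T * n ^ m * n ^ (2 * k) := by rw [pow_add]; ring
      _ ≤ 2 * P ^ T * bad.card * n ^ (2 * k) := Nat.mul_le_mul_right _ hbadc
      _ = 2 * P ^ T * (bad.card * n ^ (2 * k)) := by ring
      _ ≤ 2 * P ^ T * (copyCount H A * (T * m) ^ k * (n ^ T * n ^ m)) :=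
          Nat.mul_le_mul_left _ h2
      _ = _ := by rw [pow_add]; ring

end Vale.Agent.P037.Gen
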