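import Vale.Agent.P037.Main

/-!
Copies inside a grid of rows and columns, the trace bound for grids without copies, and the number
of product samples whose grid contains a copy.
-/

namespace Vale.Agent.P037.Gen

open Finset

variable {k n : ℕ}

/-- An ordered copy of `H` using only rows in `R` and columns in `C`. -/
def CopyIn (H : Fin k → Fin k → Bool) (A : Fin n → Fin n → Bool) (R C : Finset (Fin n)) : Prop :=
  ∃ r c : Fin k → Fin n, StrictMono r ∧ StrictMono c ∧ (∀ i, r i ∈ R) ∧ (∀ i, c i ∈ C) ∧
    ∀ i j, A (r i) (c j) = H i j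

lemma CopyIn.mono {H : Fin k → Fin k → Bool} {A : Fin n → Fin n → Bool} {R R' C C' : Finset (Fin n)}
    (h : CopyIn H A R C) (hR : R ⊆ R') (hC : C ⊆ C') : CopyIn H A R' C' := by
  obtain ⟨r, c, h1, h2, h3, h4, h5⟩ := h
  exact ⟨r, c, h1, h2, fun i => hR (h3 i), fun i => hC (h4 i), h5⟩

lemma CopyIn.transpose {H : Fin k → Fin k → Bool} {A : Fin n → Fin n → Bool}
    {R C : Finset (Fin n)} (h : CopyIn (fun i j => H j i) (fun r c => A c r) R C) :
    CopyIn H A C R := by
  obtain ⟨r, c, h1, h2, h3, h4, h5⟩ := h
  exact ⟨c, r, h2, h1, h4, h3, fun i j => h5 j i⟩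

/-- A column set of size `patSize k` shattered by rows contains a copy. -/
lemma copyIn_of_shatter (H : Fin k → Fin k → Bool) (A : Fin n → Fin n → Bool)
    {R C : Finset (Fin n)} (D : Finset (Fin n)) (hDC : D ⊆ C) (hD : D.card = patSize k)
    (hsh : ∀ u : Fin n → Bool, ∃ r ∈ R, ∀ c ∈ D, A r c = u c) : CopyIn H A R C := by
  classical
  obtain ⟨E, hE⟩ := exists_blocks k
  set col : Fin k × (Fin k → Bool) → Fin n := fun x => D.orderEmbOfFin hD (E x) with hcol
  have hcolD : ∀ x, col x ∈ D := fun x => Finset.orderEmbOfFin_mem D hD (E x)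
  have hcolinj : Function.Injective col := (D.orderEmbOfFin hD).injective.comp E.injective
  choose ρ hρR hρ using fun i : Fin k => hsh fun c => decide (∃ x, col x = c ∧ x.2 i = true)
  have hval : ∀ i x, A (ρ i) (col x) = x.2 i := fun i x => by
    rw [hρ i _ (hcolD x), Bool.eq_iff_iff, decide_eq_true_iff]
    exact ⟨fun ⟨y, hy, h⟩ => hcolinj hy ▸ h, fun h => ⟨x, rfl, h⟩⟩
  have hρinj : Function.Injective ρ := fun a b hab => by
    by_contra hne
    have h1 := hval a (a, fun i => decide (i = a))
    have h2 := hval b (a, fun i => decide (i = a))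
    rw [hab, h2] at h1
    simp [Ne.symm hne] at h1
  set π := Tuple.sort ρ
  refine ⟨ρ ∘ π, fun l => col (l, fun i => H (π.symm i) l),
    (Tuple.monotone_sort ρ).strictMono_of_injective (hρinj.comp π.injective),
    fun l l' h => (D.orderEmbOfFin hD).strictMono (hE l l' h _ _), fun i => hρR _,
    fun l => hDC (hcolD _), fun i l => ?_⟩
  simp only [Function.comp_apply, hval, Equiv.symm_apply_apply]

/-- The number of traces allowed on a set of `m` columns. -/
def trBound (k m : ℕ) : ℕ := patSize k * (m + 1) ^ patSize k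

lemma trBound_mono (k : ℕ) {a b : ℕ} (h : a ≤ b) : trBound k a ≤ trBound k b :=
  Nat.mul_le_mul_left _ (Nat.pow_le_pow_left (by omega) _)

/-- The trace of a row on a set of columns. -/
def trace (A : Fin n → Fin n → Bool) (C : Finset (Fin n)) (r : Fin n) : Finset (Fin n) :=
  C.filter fun c => A r c = true

lemma trace_eq {A : Fin n → Fin n → Bool} {C : Finset (Fin n)} {r r' : Fin n}
    (h : trace A C r = trace A C r') {c : Fin n} (hc : c ∈ C) : A r c = A r' c := by
  have := Finset.ext_iff.1 h c
  simp only [trace, Finset.mem_filter, hc, true_and] at this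
  exact Bool.eq_iff_iff.2 this

/-- Rows without a copy on a set of columns have few traces on it. -/
lemma traces_card (H : Fin k → Fin k → Bool) (A : Fin n → Fin n → Bool) {R C : Finset (Fin n)}
    (h : ¬ CopyIn H A R C) : (R.image (trace A C)).card ≤ trBound k C.card := by
  classical
  by_contra hlt
  refine h ?_
  set 𝒜 := R.image fun r => (univ : Finset C).filter fun c => A r c.1 = true with h𝒜
  have hsub : R.image (trace A C) ⊆ 𝒜.image fun s => s.map (Function.Embedding.subtype _) := by
    intro t ht
    obtain ⟨r, hr, rfl⟩ := Finset.mem_image.1 ht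
    refine Finset.mem_image.2 ⟨_, Finset.mem_image_of_mem _ hr, ?_⟩
    ext c
    simp [trace, and_comm]
  have hlt' : patSize k * (Fintype.card C + 1) ^ patSize k < 𝒜.card := by
    rw [Fintype.card_coe]
    exact lt_of_lt_of_le (not_le.1 hlt) ((Finset.card_le_card hsub).trans Finset.card_image_le)
  obtain ⟨D, hD, hDc⟩ := exists_shatters 𝒜 (patSize k) hlt'
  refine copyIn_of_shatter H A (D.map (Function.Embedding.subtype _))
    (fun c hc => by obtain ⟨d, -, rfl⟩ := Finset.mem_map.1 hc; exact d.2) (by rw [Finset.card_map, hDc])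
    fun u => ?_
  obtain ⟨t, ht, hteq⟩ := hD (t := D.filter fun c => u c.1 = true) (Finset.filter_subset _ _)
  obtain ⟨r, hr, rfl⟩ := Finset.mem_image.1 ht
  refine ⟨r, hr, fun c hc => ?_⟩
  obtain ⟨d, hd, rfl⟩ := Finset.mem_map.1 hc
  have := Finset.ext_iff.1 hteq d
  simp only [Finset.mem_inter, hd, true_and, Finset.mem_filter, Finset.mem_univ] at this
  exact Bool.eq_iff_iff.2 this

variable {ι κ : Type*} [Fintype ι] [DecidableEq ι] [Fintype κ] [DecidableEq κ]

/-- Samples with prescribed values at `k` places. -/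
lemma card_prescribed (S : ι → Finset (Fin n)) {Z : ℕ} (hS : ∀ a, n ≤ Z * (S a).card)
    (e : Fin k → ι) (he : Function.Injective e) (p : Fin k → Fin n) :
    ((Fintype.piFinset S).filter fun x => ∀ l, x (e l) = p l).card * n ^ k ≤
      Z ^ k * (Fintype.piFinset S).card := by
  classical
  set F := (Fintype.piFinset S).filter fun x => ∀ l, x (e l) = p l with hF
  set V := Fintype.piFinset fun l => S (e l) with hV
  have h1 : n ^ k ≤ Z ^ k * V.card := by
    rw [hV, Fintype.card_piFinset]
    calc n ^ k = ∏ _l : Fin k, n := by simp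
      _ ≤ ∏ l : Fin k, Z * (S (e l)).card := Finset.prod_le_prod' fun l _ => hS _
      _ = Z ^ k * ∏ l : Fin k, (S (e l)).card := by simp [Finset.prod_mul_distrib]
  have h2 : F.card * V.card ≤ (Fintype.piFinset S).card := by
    rw [← Finset.card_product]
    refine Finset.card_le_card_of_injOn (fun xv => Function.extend e xv.2 xv.1) (fun xv hxv => ?_)
      fun xv hxv xv' hxv' h => ?_
    · simp only [Finset.coe_product, Set.mem_prod, Finset.mem_coe, hF, hV, Finset.mem_filter,
        Fintype.mem_piFinset] at hxv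
      rw [Finset.mem_coe, Fintype.mem_piFinset]
      intro a
      by_cases ha : ∃ l, e l = a
      · obtain ⟨l, rfl⟩ := ha
        simp only [he.extend_apply]
        exact hxv.2 l
      · simp only [Function.extend_apply' _ _ _ ha]
        exact hxv.1.1 a
    · simp only [Finset.coe_product, Set.mem_prod, Finset.mem_coe, hF, hV, Finset.mem_filter,
        Fintype.mem_piFinset] at hxv hxv'
      refine Prod.ext (funext fun a => ?_) (funext fun l => ?_)
      · by_cases ha : ∃ l, e l = a
        · obtain ⟨l, rfl⟩ := ha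
          rw [hxv.1.2, hxv'.1.2]
        · have := congrFun h a
          simpa [Function.extend_apply' _ _ _ ha] using this
      · have := congrFun h (e l)
        simpa [he.extend_apply] using this
  calc F.card * n ^ k ≤ F.card * (Z ^ k * V.card) := Nat.mul_le_mul_left _ h1
    _ = Z ^ k * (F.card * V.card) := by ring
    _ ≤ _ := Nat.mul_le_mul_left _ h2

open Classical in
/-- Few samples have a copy in their grid. -/
lemma card_bad (H : Fin k → Fin k → Bool) (A : Fin n → Fin n → Bool) (S : ι → Finset (Fin n))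
    (T : κ → Finset (Fin n)) {Y Z : ℕ} (hS : ∀ a, n ≤ Y * (S a).card)
    (hT : ∀ a, n ≤ Z * (T a).card) :
    ((Fintype.piFinset S ×ˢ Fintype.piFinset T).filter fun xy =>
        CopyIn H A (univ.image xy.1) (univ.image xy.2)).card * n ^ (2 * k) ≤
      copyCount H A * (Fintype.card ι * Y * (Fintype.card κ * Z)) ^ k *
        ((Fintype.piFinset S).card * (Fintype.piFinset T).card) := by
  set copies := univ.filter fun p : (Fin k → Fin n) × (Fin k → Fin n) =>
    StrictMono p.1 ∧ StrictMono p.2 ∧ ∀ i j, A (p.1 i) (p.2 j) = H i j with hcopies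
  have hcc : copyCount H A = copies.card := by
    rw [copyCount, Nat.card_eq_fintype_card, Fintype.card_subtype]
  set J := ((univ : Finset (Fin k → ι)).filter Function.Injective ×ˢ
    (univ : Finset (Fin k → κ)).filter Function.Injective) ×ˢ copies with hJ
  set fib := fun q : ((Fin k → ι) × (Fin k → κ)) × ((Fin k → Fin n) × (Fin k → Fin n)) =>
    ((Fintype.piFinset S).filter fun x => ∀ l, x (q.1.1 l) = q.2.1 l) ×ˢ
      ((Fintype.piFinset T).filter fun y => ∀ l, y (q.1.2 l) = q.2.2 l) with hfib
  have hsub : ((Fintype.piFinset S ×ˢ Fintype.piFinset T).filter fun xy =>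
      CopyIn H A (univ.image xy.1) (univ.image xy.2)) ⊆ J.biUnion fib := by
    intro xy hxy
    obtain ⟨hxy, r, c, hr, hc, hrm, hcm, hval⟩ := Finset.mem_filter.1 hxy
    choose er her using fun l => Finset.mem_image.1 (hrm l)
    choose ec hec using fun l => Finset.mem_image.1 (hcm l)
    refine Finset.mem_biUnion.2 ⟨((er, ec), (r, c)), ?_, ?_⟩
    · simp only [hJ, hcopies, Finset.mem_product, Finset.mem_filter, Finset.mem_univ, true_and]
      exact ⟨⟨fun a b h => hr.injective (by rw [← (her a).2, h, (her b).2]),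
        fun a b h => hc.injective (by rw [← (hec a).2, h, (hec b).2])⟩, hr, hc, hval⟩
    · obtain ⟨hx, hy⟩ := Finset.mem_product.1 hxy
      exact Finset.mem_product.2 ⟨Finset.mem_filter.2 ⟨hx, fun l => (her l).2⟩,
        Finset.mem_filter.2 ⟨hy, fun l => (hec l).2⟩⟩
  calc _ ≤ (∑ q ∈ J, (fib q).card) * n ^ (2 * k) :=
        Nat.mul_le_mul_right _ ((Finset.card_le_card hsub).trans Finset.card_biUnion_le)
    _ = ∑ q ∈ J, (fib q).card * n ^ (2 * k) := Finset.sum_mul _ _ _
    _ ≤ ∑ _q ∈ J, (Y * Z) ^ k * ((Fintype.piFinset S).card * (Fintype.piFinset T).card) := by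
        refine Finset.sum_le_sum fun q hq => ?_
        simp only [hJ, Finset.mem_product, Finset.mem_filter, Finset.mem_univ, true_and] at hq
        rw [hfib, Finset.card_product, two_mul, pow_add, mul_mul_mul_comm, mul_pow,
          mul_mul_mul_comm (Y ^ k)]
        exact Nat.mul_le_mul (card_prescribed S hS _ hq.1.1 _) (card_prescribed T hT _ hq.1.2 _)
    _ ≤ (Fintype.card ι ^ k * Fintype.card κ ^ k * copyCount H A) *
          ((Y * Z) ^ k * ((Fintype.piFinset S).card * (Fintype.piFinset T).card)) := by
        rw [Finset.sum_const, smul_eq_mul]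
        refine Nat.mul_le_mul_right _ ?_
        rw [hJ, Finset.card_product, Finset.card_product, hcc]
        gcongr
        · exact (Finset.card_filter_le _ _).trans (by simp)
        · exact (Finset.card_filter_le _ _).trans (by simp)
    _ = _ := by simp only [mul_pow]; ring

end Vale.Agent.P037.Gen
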